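import Mathlib
import Vale.Agent.P272.K.INT.Piola

/-!
# P284 (helper500), module EXT: the projector along the slice and Liouville's formula

`Om t x ξ = det (Dt(x) ξ_j)_i` is `dt_1 ∧ ⋯ ∧ dt_q`.  If `dt_1 ∧ ⋯ ∧ dt_q = u(x)^k O'(x)` near
`p`, `O'(p)(e) ≠ 0`, then the vector fields `P(x) ζ ∈ ζ + span e` with `Dt(x) P(x) ζ = 0` are
holomorphic near `p` and tangent to `{u = 0}` if `k ≥ 1`.
-/

open Set Filter Metric Topology Vale.Agent.P272.K
open scoped NNReal ContDiff

noncomputable section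

namespace Vale.Agent.P284.H500

variable {E : Type*} [NormedAddCommGroup E] [NormedSpace ℂ E] {q : ℕ}

/-- `dt_1 ∧ ⋯ ∧ dt_q` -/
def Om (t : E → Cm q) (x : E) (ξ : Fin q → E) : ℂ :=
  (Matrix.of fun i j => fderiv ℂ t x (ξ j) i).det

/-- Cramer's rule -/
lemma Om_cramer (t : E → Cm q) (x : E) (e : Fin q → E) (ζ : E) :
    Om t x e • fderiv ℂ t x ζ = ∑ i, Om t x (Function.update e i ζ) • fderiv ℂ t x (e i) := by
  set M : Matrix (Fin q) (Fin q) ℂ := Matrix.of fun i j => fderiv ℂ t x (e j) i with hM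
  have h1 := Matrix.mulVec_cramer M (fderiv ℂ t x ζ)
  have h2 : ∀ i, M.cramer (fderiv ℂ t x ζ) i = Om t x (Function.update e i ζ) := by
    intro i
    rw [Matrix.cramer_apply, Om]
    congr 1
    ext a b
    rw [Matrix.updateCol_apply, Matrix.of_apply]
    by_cases hb : b = i
    · subst hb; simp
    · rw [if_neg hb, Function.update_of_ne hb, hM, Matrix.of_apply]
  rw [show Om t x e = M.det from rfl, ← h1]
  ext a
  rw [Matrix.mulVec, dotProduct, Finset.sum_apply]
  refine Finset.sum_congr rfl fun i _ => ?_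
  rw [h2 i, Pi.smul_apply, smul_eq_mul, hM, Matrix.of_apply, mul_comm]

/-- `t` is submersive where `dt_1 ∧ ⋯ ∧ dt_q ≠ 0` -/
lemma surjective_of_Om_ne {t : E → Cm q} {x : E} {e : Fin q → E} (h : Om t x e ≠ 0) :
    Function.Surjective (fderiv ℂ t x) := by
  intro b
  set M : Matrix (Fin q) (Fin q) ℂ := Matrix.of fun i j => fderiv ℂ t x (e j) i with hM
  have hM1 : IsUnit M.det := isUnit_iff_ne_zero.2 h
  refine ⟨∑ j, (M⁻¹.mulVec b) j • e j, ?_⟩
  have h1 : M.mulVec (M⁻¹.mulVec b) = b := by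
    rw [Matrix.mulVec_mulVec, Matrix.mul_nonsing_inv _ hM1, Matrix.one_mulVec]
  rw [map_sum]
  simp only [map_smul]
  conv_rhs => rw [← h1]
  ext a
  rw [Finset.sum_apply, Matrix.mulVec, dotProduct]
  refine Finset.sum_congr rfl fun j _ => ?_
  rw [Pi.smul_apply, smul_eq_mul, hM, Matrix.of_apply, mul_comm]

variable (O' : E → E [⋀^Fin q]→L[ℂ] ℂ) (e : Fin q → E)

/-- the coefficients of the component along the slice -/
def cf (x : E) (i : Fin q) : E →L[ℂ] ℂ := (O' x e)⁻¹ • (O' x).toContinuousLinearMap e i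

/-- the projector along the slice -/
def Pj (x : E) : E →L[ℂ] E :=
  ContinuousLinearMap.id ℂ E - ∑ i, (cf O' e x i).smulRight (e i)

lemma cf_apply (x : E) (i : Fin q) (ζ : E) :
    cf O' e x i ζ = (O' x e)⁻¹ * O' x (Function.update e i ζ) := rfl

lemma Pj_apply (x ζ : E) : Pj O' e x ζ = ζ - ∑ i, cf O' e x i ζ • e i := by
  simp [Pj]

lemma Pj_sub_mem (x ζ : E) : Pj O' e x ζ - ζ ∈ Submodule.span ℂ (range e) := by
  rw [Pj_apply, sub_sub_cancel_left]
  exact neg_mem (Submodule.sum_mem _ fun i _ =>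
    Submodule.smul_mem _ _ (Submodule.subset_span ⟨i, rfl⟩))

variable {O' e}

lemma analyticAt_apply {O' : E → E [⋀^Fin q]→L[ℂ] ℂ} {x : E} (h : AnalyticAt ℂ O' x)
    (ξ : Fin q → E) : AnalyticAt ℂ (fun y => O' y ξ) x :=
  ((ContinuousAlternatingMap.apply ℂ E ℂ ξ).analyticAt _).comp h

lemma analyticAt_cf {x : E} (h : AnalyticAt ℂ O' x) (he : O' x e ≠ 0) (i : Fin q) (ζ : E) :
    AnalyticAt ℂ (fun y => cf O' e y i ζ) x := by
  simp only [cf_apply]
  exact ((analyticAt_apply h e).inv he).mul (analyticAt_apply h _)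

lemma analyticAt_Pj {x : E} (h : AnalyticAt ℂ O' x) (he : O' x e ≠ 0) (ζ : E) :
    AnalyticAt ℂ (fun y => Pj O' e y ζ) x := by
  simp only [Pj_apply]
  refine analyticAt_const.sub ?_
  exact Finset.analyticAt_fun_sum _ fun i _ => (analyticAt_cf h he i ζ).smul analyticAt_const

section
variable [FiniteDimensional ℂ E]

lemma contDiffOn_cf {U : Set E} (h : ∀ x ∈ U, AnalyticAt ℂ O' x ∧ O' x e ≠ 0)
    (i : Fin q) : ContDiffOn ℂ 2 (fun y => cf O' e y i) U := by
  rw [contDiffOn_clm_apply]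
  intro ζ x hx
  exact (analyticAt_cf (h x hx).1 (h x hx).2 i ζ).contDiffAt.contDiffWithinAt

lemma contDiffOn_Pj {U : Set E} (h : ∀ x ∈ U, AnalyticAt ℂ O' x ∧ O' x e ≠ 0) :
    ContDiffOn ℂ 2 (Pj O' e) U := by
  rw [contDiffOn_clm_apply]
  intro ζ x hx
  exact (analyticAt_Pj (h x hx).1 (h x hx).2 ζ).contDiffAt.contDiffWithinAt

end

/-- `{u ≠ 0}` is dense where `Du ≠ 0` -/
lemma exists_ne_line {u : E → ℂ} {x : E} (h1 : DifferentiableAt ℂ u x) (h2 : fderiv ℂ u x ≠ 0) :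
    ∃ v : E, ∀ᶠ τ : ℂ in 𝓝[≠] 0, u (x + τ • v) ≠ 0 := by
  obtain ⟨v, hv⟩ : ∃ v, fderiv ℂ u x v ≠ 0 := by
    by_contra hcon
    push Not at hcon
    exact h2 (ContinuousLinearMap.ext hcon)
  refine ⟨v, ?_⟩
  have h3 : HasDerivAt (fun τ : ℂ => x + τ • v) v 0 := by
    have := ((hasDerivAt_id (0 : ℂ)).smul_const v).const_add x
    simpa using this
  have h4 : HasDerivAt (fun τ : ℂ => u (x + τ • v)) (fderiv ℂ u x v) 0 := by
    have h5 : HasFDerivAt u (fderiv ℂ u x) (x + (0 : ℂ) • v) := by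
      rw [zero_smul, add_zero]; exact h1.hasFDerivAt
    exact h5.comp_hasDerivAt (0 : ℂ) h3
  exact h4.eventually_ne hv

/-- two functions continuous on an open set which agree off `{u = 0}` agree -/
lemma eq_of_eq_off {G : Type*} [TopologicalSpace G] [T2Space G] {u : E → ℂ} {U : Set E}
    (hU : IsOpen U) (hu : ∀ x ∈ U, DifferentiableAt ℂ u x ∧ fderiv ℂ u x ≠ 0)
    {f g : E → G} (hf : ContinuousOn f U)
    (hg : ContinuousOn g U) (h : ∀ x ∈ U, u x ≠ 0 → f x = g x) : ∀ x ∈ U, f x = g x := by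
  intro x hx
  obtain ⟨v, hv⟩ := exists_ne_line (hu x hx).1 (hu x hx).2
  have h1 : Tendsto (fun τ : ℂ => x + τ • v) (𝓝[≠] 0) (𝓝 x) := by
    have : Continuous fun τ : ℂ => x + τ • v := by fun_prop
    simpa using (this.tendsto 0).mono_left nhdsWithin_le_nhds
  have h2 : ∀ᶠ τ : ℂ in 𝓝[≠] 0, x + τ • v ∈ U := h1 (hU.mem_nhds hx)
  have h3 : Tendsto (fun τ : ℂ => f (x + τ • v)) (𝓝[≠] 0) (𝓝 (f x)) :=
    ((hf.continuousAt (hU.mem_nhds hx)).tendsto).comp h1
  have h4 : Tendsto (fun τ : ℂ => g (x + τ • v)) (𝓝[≠] 0) (𝓝 (g x)) :=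
    ((hg.continuousAt (hU.mem_nhds hx)).tendsto).comp h1
  refine tendsto_nhds_unique h3 (h4.congr' ?_)
  filter_upwards [h2, hv] with τ h5 h6 using (h _ h5 h6).symm

section
variable {t : E → Cm q} {u : E → ℂ} {k : ℕ} {U : Set E}

/-- the fields `P ζ` do not change `t` -/
lemma fderiv_Pj (hu : ∀ x ∈ U, DifferentiableAt ℂ u x ∧ fderiv ℂ u x ≠ 0) (hU : IsOpen U)
    (ht : ∀ x ∈ U, AnalyticAt ℂ t x)
    (hO' : ∀ x ∈ U, AnalyticAt ℂ O' x ∧ O' x e ≠ 0)
    (hO : ∀ x ∈ U, ∀ ξ, Om t x ξ = u x ^ k * O' x ξ) :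
    ∀ ζ, ∀ x ∈ U, fderiv ℂ t x (Pj O' e x ζ) = 0 := by
  intro ζ
  refine eq_of_eq_off hU hu ?_ continuousOn_const ?_
  · intro x hx
    have h1 : ContinuousAt (fderiv ℂ t) x := (ht x hx).fderiv.continuousAt
    exact (h1.clm_apply (analyticAt_Pj (hO' x hx).1 (hO' x hx).2 ζ).continuousAt).continuousWithinAt
  · intro x hx hux
    have h1 := Om_cramer t x e ζ
    have h2 : u x ^ k ≠ 0 := pow_ne_zero _ hux
    have h3 : O' x e • fderiv ℂ t x ζ =
        ∑ i, O' x (Function.update e i ζ) • fderiv ℂ t x (e i) := by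
      have h4 : u x ^ k • (O' x e • fderiv ℂ t x ζ) =
          u x ^ k • ∑ i, O' x (Function.update e i ζ) • fderiv ℂ t x (e i) := by
        rw [Finset.smul_sum, smul_smul, ← hO x hx, h1]
        refine Finset.sum_congr rfl fun i _ => ?_
        rw [smul_smul, ← hO x hx]
      exact smul_right_injective _ h2 h4
    rw [Pj_apply, map_sub, map_sum]
    simp only [map_smul, cf_apply]
    rw [sub_eq_zero]
    have h5 : fderiv ℂ t x ζ = (O' x e)⁻¹ • (O' x e • fderiv ℂ t x ζ) := by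
      rw [smul_smul, inv_mul_cancel₀ (hO' x hx).2, one_smul]
    rw [h5, h3, Finset.smul_sum]
    refine Finset.sum_congr rfl fun i _ => ?_
    rw [smul_smul]

/-- Liouville's formula -/
lemma liouville (hU : IsOpen U) (ht : ∀ x ∈ U, AnalyticAt ℂ t x)
    (hO' : ∀ x ∈ U, AnalyticAt ℂ O' x ∧ O' x e ≠ 0)
    (hP : ∀ ζ, ∀ x ∈ U, fderiv ℂ t x (Pj O' e x ζ) = 0) (ζ : E) {x : E} (hx : x ∈ U) :
    fderiv ℂ (fun y => Om t y e) x (Pj O' e x ζ) =
      (∑ j, fderiv ℂ (fun y => cf O' e y j ζ) x (e j)) * Om t x e := by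
  have hta := ht x hx
  have hnx := hU.mem_nhds hx
  have hd2 : DifferentiableAt ℂ (fderiv ℂ t) x := hta.fderiv.differentiableAt
  have hcfd : ∀ i, DifferentiableAt ℂ (fun y => cf O' e y i ζ) x := fun i =>
    (analyticAt_cf (hO' x hx).1 (hO' x hx).2 i ζ).differentiableAt
  have hPd : DifferentiableAt ℂ (fun y => Pj O' e y ζ) x :=
    (analyticAt_Pj (hO' x hx).1 (hO' x hx).2 ζ).differentiableAt
  -- derivative of `Dt (P ζ) = 0` in the direction `e j`
  have h1 : ∀ j, fderiv ℂ (fderiv ℂ t) x (e j) (Pj O' e x ζ) =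
      ∑ i, fderiv ℂ (fun y => cf O' e y i ζ) x (e j) • fderiv ℂ t x (e i) := by
    intro j
    have h2 : HasFDerivAt (fun y => fderiv ℂ t y (Pj O' e y ζ))
        ((fderiv ℂ t x).comp (fderiv ℂ (fun y => Pj O' e y ζ) x) +
          (fderiv ℂ (fderiv ℂ t) x).flip (Pj O' e x ζ)) x :=
      hd2.hasFDerivAt.clm_apply hPd.hasFDerivAt
    have h3 : fderiv ℂ (fun y => fderiv ℂ t y (Pj O' e y ζ)) x = 0 := by
      have : (fun y => fderiv ℂ t y (Pj O' e y ζ)) =ᶠ[𝓝 x] fun _ => 0 := by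
        filter_upwards [hnx] with y hy using hP ζ y hy
      rw [this.fderiv_eq, fderiv_const_apply]
    rw [h2.fderiv] at h3
    have h4 := DFunLike.congr_fun h3 (e j)
    simp only [_root_.add_apply, ContinuousLinearMap.comp_apply,
      ContinuousLinearMap.flip_apply, _root_.zero_apply] at h4
    have h5 : HasFDerivAt (fun y => Pj O' e y ζ)
        (-∑ i, (fderiv ℂ (fun y => cf O' e y i ζ) x).smulRight (e i)) x := by
      simp only [Pj_apply]
      refine HasFDerivAt.const_sub ?_ ζ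
      exact HasFDerivAt.fun_sum fun i _ => (hcfd i).hasFDerivAt.smul_const (e i)
    rw [h5.fderiv] at h4
    simp only [_root_.neg_apply, _root_.sum_apply,
      ContinuousLinearMap.smulRight_apply, map_neg, map_sum, map_smul] at h4
    rw [← sub_eq_zero, ← h4]; abel
  have hsymm : ∀ a b, fderiv ℂ (fderiv ℂ t) x a b = fderiv ℂ (fderiv ℂ t) x b a := by
    have := (hta.contDiffAt (n := ω)).isSymmSndFDerivAt (by simp)
    exact fun a b => this a b
  -- derivative of the determinant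
  have hM : ∀ i j, DifferentiableAt ℝ
      (fun y => (Matrix.of fun j i => fderiv ℂ t y (e j) i : Matrix (Fin q) (Fin q) ℂ) i j) x := by
    intro i j
    simp only [Matrix.of_apply]
    have h2 : DifferentiableAt ℂ (fun y => fderiv ℂ t y (e i)) x :=
      hd2.clm_apply (differentiableAt_const _)
    exact (differentiableAt_pi.1 h2 j).restrictScalars ℝ
  have h2 := INT.fderiv_det hM (Pj O' e x ζ)
  have h3 : ∀ y, (Matrix.of fun j i => fderiv ℂ t y (e j) i : Matrix (Fin q) (Fin q) ℂ).det =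
      Om t y e := by
    intro y
    rw [Om, ← Matrix.det_transpose]; rfl
  simp only [h3] at h2
  have h4 : DifferentiableAt ℂ (fun y => Om t y e) x := by
    have : (fun y => Om t y e) = fun y => ∑ σ : Equiv.Perm (Fin q),
        (Equiv.Perm.sign σ : ℂ) * ∏ i, fderiv ℂ t y (e i) (σ i) := by
      funext y; rw [Om, Matrix.det_apply']; rfl
    rw [this]
    refine DifferentiableAt.fun_sum fun σ _ => DifferentiableAt.const_mul ?_ _
    have h6 : ∀ i ∈ (Finset.univ : Finset (Fin q)),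
        HasFDerivAt (fun y => fderiv ℂ t y (e i) (σ i))
          (fderiv ℂ (fun y => fderiv ℂ t y (e i) (σ i)) x) x := by
      intro i _
      have h5 : DifferentiableAt ℂ (fun y => fderiv ℂ t y (e i)) x :=
        hd2.clm_apply (differentiableAt_const _)
      exact (differentiableAt_pi.1 h5 (σ i)).hasFDerivAt
    exact (HasFDerivAt.finsetProd h6).differentiableAt
  have h5 : fderiv ℝ (fun y => Om t y e) x (Pj O' e x ζ) =
      fderiv ℂ (fun y => Om t y e) x (Pj O' e x ζ) := by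
    rw [(h4.hasFDerivAt.restrictScalars ℝ).fderiv]; rfl
  rw [← h5, h2, Finset.sum_mul]
  refine Finset.sum_congr rfl fun j _ => ?_
  have h6 : (fun l => fderiv ℝ (fun y =>
      (Matrix.of fun j i => fderiv ℂ t y (e j) i : Matrix (Fin q) (Fin q) ℂ) j l) x
        (Pj O' e x ζ)) =
      ∑ i, fderiv ℂ (fun y => cf O' e y i ζ) x (e j) •
        (Matrix.of fun j i => fderiv ℂ t x (e j) i : Matrix (Fin q) (Fin q) ℂ) i := by
    funext l
    have h7 : HasFDerivAt (fun y => fderiv ℂ t y (e j))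
        ((fderiv ℂ (fderiv ℂ t) x).flip (e j)) x := by
      have := hd2.hasFDerivAt.clm_apply (hasFDerivAt_const (e j) x)
      simpa using this
    have h8 : HasFDerivAt (fun y => fderiv ℂ t y (e j) l)
        ((ContinuousLinearMap.proj l).comp ((fderiv ℂ (fderiv ℂ t) x).flip (e j))) x :=
      ((ContinuousLinearMap.proj l : Cm q →L[ℂ] ℂ).hasFDerivAt).comp x h7
    simp only [Matrix.of_apply]
    rw [(h8.restrictScalars ℝ).fderiv]
    simp only [ContinuousLinearMap.coe_restrictScalars', ContinuousLinearMap.comp_apply,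
      ContinuousLinearMap.flip_apply, ContinuousLinearMap.proj_apply]
    rw [hsymm, h1 j, Finset.sum_apply, Finset.sum_apply]
    rfl
  rw [h6, Matrix.det_updateRow_sum, h3, smul_eq_mul]

end

end Vale.Agent.P284.H500
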