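import Mathlib
import Vale.Agent.P284.H500.Proj

/-!
# P284 (helper500), module EXT: local statements

`t : E → ℂ^q` and `S : E → Λ^(q+1) E' ⊗ W` are holomorphic on an open set `U`, `S` vanishes when two
of its arguments are vertical (at points where `t` is submersive), and the mass `∫ ‖S‖²` over a tube `U ∩ t⁻¹ T` is at most a constant
times the volume of `T`.

* (T) `TubeStmt`: along a hypersurface `u = 0` the minors of `Dt` do not vanish to a higher order than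
  `S`;
* (G) `SliceStmt`: almost every line consists of points where `S = (dt_1 ∧ ⋯ ∧ dt_q) ∧ Θ` with `Θ`
  holomorphic (`Good`), apart from the points near which a given minor vanishes along the line.
* (A) `ThmAStmt`: quotients of holomorphic functions which are bounded near good points are
  holomorphic.
-/

open Set Filter Metric Topology MeasureTheory Vale.Agent.P272.K
open scoped NNReal ENNReal

noncomputable section

namespace Vale.Agent.P284.H500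

variable {E : Type*} [NormedAddCommGroup E] [NormedSpace ℂ E] {q : ℕ}
  {W : Type*} [NormedAddCommGroup W] [NormedSpace ℂ W]

/-- at points where `t` is submersive, `S` vanishes when two of its arguments are vertical -/
def Rel (t : E → Cm q) (S : E → E [⋀^Fin (q + 1)]→L[ℂ] W) (U : Set E) : Prop :=
  ∀ x ∈ U, Function.Surjective (fderiv ℂ t x) → ∀ ξ : Fin (q + 1) → E, ∀ i j, i ≠ j →
    fderiv ℂ t x (ξ i) = 0 → fderiv ℂ t x (ξ j) = 0 → S x ξ = 0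

/-- the mass of `S` over a tube is at most a constant times the volume of its base -/
def Tube [MeasurableSpace E] (μ : Measure E) (t : E → Cm q)
    (S : E → E [⋀^Fin (q + 1)]→L[ℂ] W) (U : Set E) : Prop :=
  ∃ C : ℝ≥0∞, C ≠ ⊤ ∧ ∀ T : Set (Cm q), IsOpen T →
    ∫⁻ x in U ∩ t ⁻¹' T, ‖S x‖ₑ ^ 2 ∂μ ≤ C * volume T

/-- near `x`, `S = (dt_1 ∧ ⋯ ∧ dt_q) ∧ Θ` on vertical vectors, with `Θ` holomorphic -/
def Good (t : E → Cm q) (S : E → E [⋀^Fin (q + 1)]→L[ℂ] W) (x : E) : Prop :=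
  ∃ Θ : E → E →L[ℂ] W, AnalyticAt ℂ Θ x ∧ ∀ᶠ y in 𝓝 x, ∀ (w : Fin q → E) (η : E),
    fderiv ℂ t y η = 0 → S y (Fin.snoc w η) = Om t y w • Θ y η

/-- (T) -/
def TubeStmt.{v, w} : Prop := ∀ (E : Type v) [NormedAddCommGroup E] [NormedSpace ℂ E]
  [FiniteDimensional ℂ E] [MeasurableSpace E] [BorelSpace E] (μ : Measure E) [μ.IsAddHaarMeasure]
  (W : Type w) [NormedAddCommGroup W] [NormedSpace ℂ W] (q k j : ℕ) (t : E → Cm q)
  (S S' : E → E [⋀^Fin (q + 1)]→L[ℂ] W) (O' : E → E [⋀^Fin q]→L[ℂ] ℂ) (u : E → ℂ) (U : Set E)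
  (p : E) (e : Fin q → E),
  IsOpen U → p ∈ U → AnalyticAt ℂ t p → AnalyticAt ℂ u p → u p = 0 → fderiv ℂ u p ≠ 0 →
  AnalyticAt ℂ O' p → O' p e ≠ 0 → (∀ᶠ x in 𝓝 p, ∀ ξ, Om t x ξ = u x ^ k * O' x ξ) →
  ContinuousAt S' p → S' p ≠ 0 → (∀ᶠ x in 𝓝 p, S x = u x ^ j • S' x) → Tube μ t S U → k ≤ j

/-- (G) -/
def SliceStmt.{v, w} : Prop := ∀ (E : Type v) [NormedAddCommGroup E] [NormedSpace ℂ E]
  [FiniteDimensional ℂ E] [MeasurableSpace E] [BorelSpace E] (μ : Measure E) [μ.IsAddHaarMeasure]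
  (W : Type w) [NormedAddCommGroup W] [NormedSpace ℂ W] [CompleteSpace W] (q : ℕ) (t : E → Cm q)
  (S : E → E [⋀^Fin (q + 1)]→L[ℂ] W) (U : Set E) (e : Fin q → E) (v : E),
  IsOpen U → (∀ x ∈ U, AnalyticAt ℂ t x) → (∀ x ∈ U, AnalyticAt ℂ S x) → Rel t S U →
  Tube μ t S U →
  ∀ᵐ x ∂μ, ∀ z : ℂ, x + z • v ∈ U → (∃ᶠ s in 𝓝 (0 : ℂ), Om t (x + z • v + s • v) e ≠ 0) →
    Good t S (x + z • v)

/-- (A) -/
def ThmAStmt.{v, w, w'} : Prop := ∀ (E : Type v) [NormedAddCommGroup E] [NormedSpace ℂ E]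
  [FiniteDimensional ℂ E] [MeasurableSpace E] [BorelSpace E] (μ : Measure E) [μ.IsAddHaarMeasure]
  (W : Type w) [NormedAddCommGroup W] [NormedSpace ℂ W] [CompleteSpace W] (q : ℕ) (t : E → Cm q)
  (S : E → E [⋀^Fin (q + 1)]→L[ℂ] W) (U : Set E) (Z : Type w') [NormedAddCommGroup Z]
  [NormedSpace ℂ Z] [CompleteSpace Z] (h : E → ℂ) (φ : E → Z) (x₀ : E),
  IsOpen U → (∀ x ∈ U, AnalyticAt ℂ t x) → (∀ x ∈ U, AnalyticAt ℂ S x) → Rel t S U →
  Tube μ t S U → (∀ x ∈ U, AnalyticAt ℂ h x) → (∀ x ∈ U, AnalyticAt ℂ φ x) → x₀ ∈ U →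
  (∃ᶠ x in 𝓝 x₀, h x ≠ 0) → (∃ᶠ x in 𝓝 x₀, Om t x ≠ 0) →
  (∀ x ∈ U, Good t S x → ∃ C : ℝ, ∀ᶠ y in 𝓝 x, ‖φ y‖ ≤ C * ‖h y‖) →
  ∃ g : E → Z, AnalyticAt ℂ g x₀ ∧ ∀ᶠ x in 𝓝 x₀, φ x = h x • g x

end Vale.Agent.P284.H500
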