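import Mathlib

/-!
# P284 (helper500), module EXT: moving a tube into a slice

`P x` is a projector along the span of `e` onto directions which do not change `t`; the integral
curves of `x ↦ P x (p - x₀)` move a point `x₀` near `p` into the slice `p + span e` in time `1`,
without changing `t`, and without changing `‖u (x - p)‖` by more than a constant factor.
-/

open Set Filter Metric Topology
open scoped NNReal

noncomputable section

namespace Vale.Agent.P284.H500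

variable {E F : Type*} [NormedAddCommGroup E] [NormedSpace ℂ E] [FiniteDimensional ℂ E]
  [NormedAddCommGroup F] [NormedSpace ℂ F]

/-- a projection with a given kernel -/
lemma exists_proj (V : Submodule ℂ E) : ∃ Q : E →L[ℂ] E, ∀ x, Q x = 0 ↔ x ∈ V := by
  obtain ⟨V', h⟩ := V.exists_isCompl
  refine ⟨LinearMap.toContinuousLinearMap
    (V'.subtype.comp (Submodule.projectionOnto V' V h.symm)), fun x => ?_⟩
  simp only [LinearMap.coe_toContinuousLinearMap', LinearMap.comp_apply, Submodule.subtype_apply,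
    ZeroMemClass.coe_eq_zero]
  rw [← LinearMap.mem_ker, Submodule.ker_projectionOnto]

theorem flow_to_slice {t : E → F} {u : E → ℂ} {P : E → E →L[ℂ] E} {p : E}
    {V : Submodule ℂ E} {C : ℝ} (hC : 0 ≤ C)
    (ht : ∀ᶠ x in 𝓝 p, DifferentiableAt ℂ t x)
    (hP : ContDiffAt ℂ 1 P p)
    (h0 : ∀ᶠ x in 𝓝 p, ∀ ζ, fderiv ℂ t x (P x ζ) = 0)
    (hs : ∀ᶠ x in 𝓝 p, ∀ ζ, P x ζ - ζ ∈ V)
    (hud : ∀ᶠ x in 𝓝 p, DifferentiableAt ℂ u x)
    (hu : ∀ᶠ x in 𝓝 p, ∀ ζ, ‖fderiv ℂ u x (P x ζ)‖ ≤ C * ‖u x‖ * ‖ζ‖) {ρ : ℝ} (hρ : 0 < ρ) :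
    ∃ r > 0, ∀ x ∈ ball p r, ∃ y ∈ ball p ρ, y - p ∈ V ∧ t y = t x ∧
      ‖u y‖ ≤ Real.exp C * ‖u x‖ := by
  -- Lipschitz and bounded near `p`
  obtain ⟨K, s, hs1, hLip⟩ := hP.exists_lipschitzOnWith
  have hbd : ∀ᶠ x in 𝓝 p, ‖P x‖ ≤ ‖P p‖ + 1 := by
    have h1 : ContinuousAt (fun x => ‖P x‖) p := hP.continuousAt.norm
    have h2 := h1.eventually (gt_mem_nhds (show ‖P p‖ < ‖P p‖ + 1 by linarith))
    exact h2.mono fun x hx => hx.le
  obtain ⟨a, ha, hball⟩ := Metric.eventually_nhds_iff_ball.1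
    (ht.and (h0.and (hs.and ((hud.and hu).and (hbd.and hs1)))))
  set B : ℝ := ‖P p‖ + 1 with hB
  have hB0 : 0 < B := by positivity
  -- radii
  set a' : ℝ := min (a / 2) (ρ / 2) with ha'
  have ha'0 : 0 < a' := lt_min (by linarith) (by linarith)
  have ha'a : a' < a := (min_le_left _ _).trans_lt (by linarith)
  have ha'ρ : a' < ρ := (min_le_right _ _).trans_lt (by linarith)
  set r : ℝ := min (min (a' / 2) 1) (a' / (2 * B)) with hr
  have hr0 : 0 < r := lt_min (lt_min (by linarith) one_pos) (by positivity)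
  have hr1 : r ≤ 1 := (min_le_left _ _).trans (min_le_right _ _)
  have hra : r ≤ a' / 2 := (min_le_left _ _).trans (min_le_left _ _)
  have hrB : B * r ≤ a' / 2 := by
    calc B * r ≤ B * (a' / (2 * B)) := by gcongr; exact min_le_right _ _
      _ = a' / 2 := by field_simp
  have hsub : ∀ x ∈ closedBall p a', x ∈ ball p a := fun x hx =>
    mem_ball.2 ((mem_closedBall.1 hx).trans_lt ha'a)
  refine ⟨r, hr0, fun x hx => ?_⟩
  have hxr : ‖p - x‖ ≤ r := by rw [← dist_eq_norm, dist_comm]; exact (mem_ball.1 hx).le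
  set ζ : E := p - x with hζ
  -- the vector field
  classical
  set f : E → E := fun y => if y ∈ closedBall p a' then P y ζ else 0 with hf
  have hfb : ∀ y, ‖f y‖ ≤ a' / 2 := by
    intro y
    simp only [hf]
    split_ifs with hy
    · calc ‖P y ζ‖ ≤ ‖P y‖ * ‖ζ‖ := (P y).le_opNorm ζ
        _ ≤ B * r := by
          gcongr
          exact (hball y (hsub y hy)).2.2.2.2.1
        _ ≤ a' / 2 := hrB
    · simp only [norm_zero]; positivity
  have hfL : LipschitzOnWith (K * ⟨‖ζ‖, norm_nonneg _⟩) f (closedBall p a') := by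
    refine LipschitzOnWith.of_dist_le_mul fun y hy z hz => ?_
    have e1 : f y = P y ζ := by simp only [hf]; rw [if_pos hy]
    have e2 : f z = P z ζ := by simp only [hf]; rw [if_pos hz]
    have h1 := hLip.dist_le_mul y (hball y (hsub y hy)).2.2.2.2.2
      z (hball z (hsub z hz)).2.2.2.2.2
    rw [e1, e2, dist_eq_norm, ← sub_apply]
    calc ‖(P y - P z) ζ‖ ≤ ‖P y - P z‖ * ‖ζ‖ := ContinuousLinearMap.le_opNorm _ _
      _ ≤ (K * dist y z) * ‖ζ‖ := by
        gcongr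
        rw [← dist_eq_norm]; exact h1
      _ = K * ‖ζ‖ * dist y z := by ring
  have hPL : IsPicardLindelof (fun _ : ℝ => f) (tmin := 0) (tmax := 1) ⟨0, by simp⟩ p
      ⟨a', ha'0.le⟩ ⟨a' / 2, by positivity⟩ ⟨a' / 2, by positivity⟩
      (K * ⟨‖ζ‖, norm_nonneg _⟩) := by
    refine IsPicardLindelof.of_time_independent (fun y _ => hfb y) hfL ?_
    change a' / 2 * max ((1 : ℝ) - 0) (0 - 0) ≤ a' - a' / 2
    rw [sub_zero, sub_self, max_eq_left zero_le_one]; linarith
  obtain ⟨α, hα0, hα⟩ := hPL.exists_eq_forall_mem_Icc_hasDerivWithinAt (x := x)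
    (mem_closedBall.2 ((mem_ball.1 hx).le.trans hra))
  simp only at hα0 hα
  -- the curve stays in the ball
  have hmem : ∀ τ ∈ Icc (0 : ℝ) 1, α τ ∈ closedBall p a' := by
    intro τ hτ
    have h1 := norm_image_sub_le_of_norm_deriv_le_segment' (f := α) (f' := fun τ => f (α τ))
      (C := a' / 2) (fun τ hτ => hα τ hτ) (fun τ _ => hfb (α τ)) τ hτ
    rw [hα0] at h1
    rw [mem_closedBall, dist_eq_norm]
    calc ‖α τ - p‖ = ‖(α τ - x) + (x - p)‖ := by congr 1; abel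
      _ ≤ ‖α τ - x‖ + ‖x - p‖ := norm_add_le _ _
      _ ≤ a' / 2 * (τ - 0) + a' / 2 := by
        gcongr
        rw [← dist_eq_norm]; exact (mem_ball.1 hx).le.trans hra
      _ ≤ a' / 2 * 1 + a' / 2 := by gcongr; linarith [hτ.2]
      _ = a' := by ring
  have hα' : ∀ τ ∈ Icc (0 : ℝ) 1, HasDerivWithinAt α (P (α τ) ζ) (Icc 0 1) τ := by
    intro τ hτ
    have h1 := hα τ hτ
    have e1 : f (α τ) = P (α τ) ζ := by simp only [hf]; rw [if_pos (hmem τ hτ)]
    rwa [e1] at h1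
  have hcont : ContinuousOn α (Icc 0 1) := fun τ hτ => (hα' τ hτ).continuousWithinAt
  have hIci : ∀ τ ∈ Ico (0 : ℝ) 1, HasDerivWithinAt α (P (α τ) ζ) (Ici τ) τ := by
    intro τ hτ
    refine (hα' τ ⟨hτ.1, hτ.2.le⟩).mono_of_mem_nhdsWithin ?_
    filter_upwards [Ico_mem_nhdsGE hτ.2] with z hz
    exact ⟨hτ.1.trans hz.1, hz.2.le⟩
  have h1mem : (1 : ℝ) ∈ Icc (0 : ℝ) 1 := ⟨zero_le_one, le_refl _⟩
  refine ⟨α 1, ?_, ?_, ?_, ?_⟩
  · exact mem_ball.2 ((mem_closedBall.1 (hmem 1 h1mem)).trans_lt ha'ρ)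
  · -- the slice
    obtain ⟨Q, hQ⟩ := exists_proj V
    have hg : ∀ τ ∈ Icc (0 : ℝ) 1, (fun τ : ℝ => Q (α τ) - τ • Q ζ) τ =
        (fun τ : ℝ => Q (α τ) - τ • Q ζ) 0 := by
      refine constant_of_has_deriv_right_zero ?_ ?_
      · exact (Q.continuous.comp_continuousOn hcont).sub
          (by fun_prop)
      · intro τ hτ
        have h2 : HasDerivWithinAt (fun τ => Q (α τ)) (Q (P (α τ) ζ)) (Ici τ) τ :=
          (Q.restrictScalars ℝ).hasFDerivAt.comp_hasDerivWithinAt τ (hIci τ hτ)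
        have h3 : HasDerivWithinAt (fun τ : ℝ => τ • Q ζ) ((1 : ℝ) • Q ζ) (Ici τ) τ :=
          ((hasDerivAt_id τ).smul_const (Q ζ)).hasDerivWithinAt
        have h4 := h2.sub h3
        have h5 : Q (P (α τ) ζ) - (1 : ℝ) • Q ζ = 0 := by
          rw [one_smul, ← map_sub, hQ]
          exact (hball _ (hsub _ (hmem τ ⟨hτ.1, hτ.2.le⟩))).2.2.1 ζ
        rwa [h5] at h4
    have h2 := hg 1 h1mem
    simp only [one_smul, zero_smul, sub_zero] at h2
    rw [hα0] at h2
    rw [← hQ, map_sub]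
    have h3 : Q (α 1) = Q x + Q ζ := by rw [← h2]; abel
    rw [h3, hζ, map_sub]; abel
  · -- `t` is constant
    have hg : ∀ τ ∈ Icc (0 : ℝ) 1, (fun τ : ℝ => t (α τ)) τ = (fun τ : ℝ => t (α τ)) 0 := by
      refine constant_of_has_deriv_right_zero ?_ ?_
      · intro τ hτ
        have h2 := (hball _ (hsub _ (hmem τ hτ))).1.continuousAt
        exact h2.comp_continuousWithinAt (hcont τ hτ)
      · intro τ hτ
        have hm := hball _ (hsub _ (hmem τ ⟨hτ.1, hτ.2.le⟩))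
        have h2 : HasFDerivAt t ((fderiv ℂ t (α τ)).restrictScalars ℝ) (α τ) :=
          hm.1.hasFDerivAt.restrictScalars ℝ
        have h3 := h2.comp_hasDerivWithinAt τ (hIci τ hτ)
        simp only [ContinuousLinearMap.coe_restrictScalars'] at h3
        rw [hm.2.1 ζ] at h3
        exact h3
    have h2 := hg 1 h1mem
    simp only [hα0] at h2
    exact h2
  · -- Gronwall
    have h2 := norm_le_gronwallBound_of_norm_deriv_right_le (f := fun τ => u (α τ))
      (f' := fun τ => fderiv ℂ u (α τ) (P (α τ) ζ)) (δ := ‖u x‖) (K := C) (ε := 0) (a := 0)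
      (b := 1) ?_ ?_ ?_ ?_ 1 h1mem
    · rw [gronwallBound_ε0] at h2
      simp only [sub_zero, mul_one] at h2
      rw [mul_comm]
      exact h2
    · intro τ hτ
      have h3 := (hball _ (hsub _ (hmem τ hτ))).2.2.2.1.1.continuousAt
      exact h3.comp_continuousWithinAt (hcont τ hτ)
    · intro τ hτ
      have hm := hball _ (hsub _ (hmem τ ⟨hτ.1, hτ.2.le⟩))
      have h3 : HasFDerivAt u ((fderiv ℂ u (α τ)).restrictScalars ℝ) (α τ) :=
        hm.2.2.2.1.1.hasFDerivAt.restrictScalars ℝ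
      exact h3.comp_hasDerivWithinAt τ (hIci τ hτ)
    · simp only [hα0]; exact le_refl _
    · intro τ hτ
      have hm := hball _ (hsub _ (hmem τ ⟨hτ.1, hτ.2.le⟩))
      rw [add_zero]
      calc ‖fderiv ℂ u (α τ) (P (α τ) ζ)‖ ≤ C * ‖u (α τ)‖ * ‖ζ‖ := hm.2.2.2.1.2 ζ
        _ ≤ C * ‖u (α τ)‖ * 1 := by gcongr; exact hxr.trans hr1
        _ = _ := by ring

end Vale.Agent.P284.H500
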