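import Vale.Agent.P284.H500.Proj
import Vale.Agent.P284.H500.Flow

/-!
# P284 (helper500), module EXT: the fields `P ζ` are tangent to `{u = 0}`
-/

open Set Filter Metric Topology Vale.Agent.P272.K
open scoped NNReal ContDiff

noncomputable section

namespace Vale.Agent.P284.H500

variable {E : Type*} [NormedAddCommGroup E] [NormedSpace ℂ E] [FiniteDimensional ℂ E] {q : ℕ}
  {O' : E → E [⋀^Fin q]→L[ℂ] ℂ} {e : Fin q → E}
  {t : E → Cm q} {u : E → ℂ} {p : E} {k : ℕ} {U : Set E}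

omit [FiniteDimensional ℂ E] in
/-- Off `{u = 0}`, the logarithmic derivative of `u` along `P ζ`. -/
lemma u_Pj_eq (hU : IsOpen U) (hk : k ≠ 0) (ht : ∀ x ∈ U, AnalyticAt ℂ t x)
    (hO' : ∀ x ∈ U, AnalyticAt ℂ O' x ∧ O' x e ≠ 0)
    (hO : ∀ x ∈ U, ∀ ξ, Om t x ξ = u x ^ k * O' x ξ)
    (hP : ∀ ζ, ∀ x ∈ U, fderiv ℂ t x (Pj O' e x ζ) = 0) (ζ : E) {x : E} (hx : x ∈ U)
    (hud : DifferentiableAt ℂ u x) (hux : u x ≠ 0) :
    (k : ℂ) * fderiv ℂ u x (Pj O' e x ζ) * O' x e =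
      u x * ((∑ j, fderiv ℂ (fun y => cf O' e y j ζ) x (e j)) * O' x e -
        fderiv ℂ (fun y => O' y e) x (Pj O' e x ζ)) := by
  have h1 := liouville hU ht hO' hP ζ hx
  have h2 : fderiv ℂ (fun y => Om t y e) x = fderiv ℂ (fun y => u y ^ k * O' y e) x := by
    apply Filter.EventuallyEq.fderiv_eq
    filter_upwards [hU.mem_nhds hx] with y hy using hO y hy e
  have h3 : HasFDerivAt u (fderiv ℂ u x) x := hud.hasFDerivAt
  have h4 : HasFDerivAt (fun y => u y ^ k) ((k * u x ^ (k - 1)) • fderiv ℂ u x) x := by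
    have := h3.pow k
    simpa using this
  have h5 : HasFDerivAt (fun y => O' y e) (fderiv ℂ (fun y => O' y e) x) x :=
    (analyticAt_apply (hO' x hx).1 e).differentiableAt.hasFDerivAt
  have h6 := (h4.mul h5).fderiv
  have h7 : fderiv ℂ (fun y => u y ^ k * O' y e) x (Pj O' e x ζ) =
      u x ^ k * fderiv ℂ (fun y => O' y e) x (Pj O' e x ζ) +
        O' x e * (k * u x ^ (k - 1) * fderiv ℂ u x (Pj O' e x ζ)) := by
    have h8 : (fun y => u y ^ k * O' y e) = (fun y => u y ^ k) * fun y => O' y e := rfl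
    rw [h8, h6]
    simp only [_root_.add_apply, _root_.smul_apply, smul_eq_mul]
  rw [h2, h7, hO x hx e] at h1
  obtain ⟨k', rfl⟩ := Nat.exists_eq_succ_of_ne_zero hk
  simp only [Nat.succ_eq_add_one, Nat.add_sub_cancel] at h1 ⊢
  have h9 : u x ^ k' ≠ 0 := pow_ne_zero _ hux
  apply mul_left_cancel₀ h9
  rw [pow_succ] at h1
  linear_combination h1

theorem tangent (hu : ∀ x ∈ U, AnalyticAt ℂ u x ∧ fderiv ℂ u x ≠ 0) (hU : IsOpen U) (hpU : p ∈ U) (hk : k ≠ 0)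
    (ht : ∀ x ∈ U, AnalyticAt ℂ t x)
    (hO' : ∀ x ∈ U, AnalyticAt ℂ O' x ∧ O' x e ≠ 0)
    (hO : ∀ x ∈ U, ∀ ξ, Om t x ξ = u x ^ k * O' x ξ) :
    ∃ C, 0 ≤ C ∧ ∀ᶠ x in 𝓝 p, ∀ ζ, ‖fderiv ℂ u x (Pj O' e x ζ)‖ ≤ C * ‖u x‖ * ‖ζ‖ := by
  have hu' : ∀ x ∈ U, DifferentiableAt ℂ u x ∧ fderiv ℂ u x ≠ 0 := fun x hx =>
    ⟨(hu x hx).1.differentiableAt, (hu x hx).2⟩
  have hP := fderiv_Pj hu' hU ht hO' hO
  have hnp := hU.mem_nhds hpU
  have hcf : ∀ j, ContDiffAt ℂ 2 (fun y => cf O' e y j) p := fun j =>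
    (contDiffOn_cf hO' j).contDiffAt hnp
  have hPj : ContDiffAt ℂ 2 (Pj O' e) p := (contDiffOn_Pj hO').contDiffAt hnp
  -- bounds
  have e1 : ∀ᶠ x in 𝓝 p, ∀ j, ‖fderiv ℂ (fun y => cf O' e y j) x‖ <
      ‖fderiv ℂ (fun y => cf O' e y j) p‖ + 1 := by
    rw [eventually_all]
    intro j
    have h1 : ContinuousAt (fderiv ℂ (fun y => cf O' e y j)) p :=
      ((hcf j).fderiv_right (m := 0) (by norm_num)).continuousAt
    have h2 : ContinuousAt (fun x => ‖fderiv ℂ (fun y => cf O' e y j) x‖) p :=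
      Tendsto.comp (continuous_norm.tendsto (fderiv ℂ (fun y => cf O' e y j) p)) h1
    exact h2.eventually (gt_mem_nhds (lt_add_one _))
  have e2 : ∀ᶠ x in 𝓝 p, ‖O' p e‖ / 2 < ‖O' x e‖ := by
    have h1 : ContinuousAt (fun y => O' y e) p := (analyticAt_apply (hO' p hpU).1 e).continuousAt
    refine h1.norm.eventually (lt_mem_nhds ?_)
    have := norm_pos_iff.2 (hO' p hpU).2
    linarith
  have e3 : ∀ᶠ x in 𝓝 p, ‖fderiv ℂ (fun y => O' y e) x‖ <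
      ‖fderiv ℂ (fun y => O' y e) p‖ + 1 := by
    have h1 : ContinuousAt (fderiv ℂ (fun y => O' y e)) p :=
      (analyticAt_apply (hO' p hpU).1 e).fderiv.continuousAt
    exact h1.norm.eventually (gt_mem_nhds (lt_add_one _))
  have e4 : ∀ᶠ x in 𝓝 p, ‖Pj O' e x‖ < ‖Pj O' e p‖ + 1 :=
    hPj.continuousAt.norm.eventually (gt_mem_nhds (lt_add_one _))
  set c1 : Fin q → ℝ := fun j => ‖fderiv ℂ (fun y => cf O' e y j) p‖ + 1 with hc1
  set c2 : ℝ := ‖O' p e‖ / 2 with hc2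
  have hc2' : 0 < c2 := by have := norm_pos_iff.2 (hO' p hpU).2; positivity
  set c3 : ℝ := ‖fderiv ℂ (fun y => O' y e) p‖ + 1 with hc3
  set c4 : ℝ := ‖Pj O' e p‖ + 1 with hc4
  have hc3' : 0 < c3 := by positivity
  have hc4' : 0 < c4 := by positivity
  set C : ℝ := (∑ j, c1 j * ‖e j‖) + c3 * c4 / c2 with hC
  have hC0 : 0 ≤ C := by
    refine add_nonneg (Finset.sum_nonneg fun j _ => ?_) (by positivity)
    simp only [hc1]; positivity
  refine ⟨C, hC0, ?_⟩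
  obtain ⟨r, hr, hball⟩ := Metric.eventually_nhds_iff_ball.1
    ((hU.eventually_mem hpU).and (e1.and (e2.and (e3.and e4))))
  -- off `{u = 0}`
  have key : ∀ x ∈ ball p r, u x ≠ 0 → ∀ ζ, ‖fderiv ℂ u x (Pj O' e x ζ)‖ ≤ C * ‖u x‖ * ‖ζ‖ := by
    intro x hx hux ζ
    obtain ⟨hxU, f1, f2, f3, f4⟩ := hball x hx
    have h1 := u_Pj_eq hU hk ht hO' hO hP ζ hxU (hu' x hxU).1 hux
    have hO0 := (hO' x hxU).2
    have hPn : ‖Pj O' e x ζ‖ ≤ c4 * ‖ζ‖ := by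
      calc _ ≤ ‖Pj O' e x‖ * ‖ζ‖ := ContinuousLinearMap.le_opNorm _ _
        _ ≤ c4 * ‖ζ‖ := by gcongr
    have h2 : ‖∑ j, fderiv ℂ (fun y => cf O' e y j ζ) x (e j)‖ ≤ (∑ j, c1 j * ‖e j‖) * ‖ζ‖ := by
      rw [Finset.sum_mul]
      refine (norm_sum_le _ _).trans (Finset.sum_le_sum fun j _ => ?_)
      have h3 : HasFDerivAt (fun y => cf O' e y j ζ)
          ((fderiv ℂ (fun y => cf O' e y j) x).flip ζ) x := by
        have hd : DifferentiableAt ℂ (fun y => cf O' e y j) x :=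
          ((contDiffOn_cf hO' j).contDiffAt (hU.mem_nhds hxU)).differentiableAt (by norm_num)
        have := hd.hasFDerivAt.clm_apply (hasFDerivAt_const ζ x)
        simpa using this
      rw [h3.fderiv, ContinuousLinearMap.flip_apply]
      calc _ ≤ ‖fderiv ℂ (fun y => cf O' e y j) x (e j)‖ * ‖ζ‖ := ContinuousLinearMap.le_opNorm _ _
        _ ≤ ‖fderiv ℂ (fun y => cf O' e y j) x‖ * ‖e j‖ * ‖ζ‖ := by
          gcongr; exact ContinuousLinearMap.le_opNorm _ _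
        _ ≤ _ := by gcongr; exact (f1 j).le
    have h3 : ‖fderiv ℂ (fun y => O' y e) x (Pj O' e x ζ)‖ ≤ c3 * (c4 * ‖ζ‖) := by
      calc _ ≤ ‖fderiv ℂ (fun y => O' y e) x‖ * ‖Pj O' e x ζ‖ := ContinuousLinearMap.le_opNorm _ _
        _ ≤ _ := by gcongr
    have hk1 : (1 : ℝ) ≤ ‖(k : ℂ)‖ := by
      rw [Complex.norm_natCast]; exact_mod_cast Nat.one_le_iff_ne_zero.2 hk
    have h4 : ‖fderiv ℂ u x (Pj O' e x ζ)‖ * ‖O' x e‖ ≤
        ‖u x‖ * ((∑ j, c1 j * ‖e j‖) * ‖ζ‖ * ‖O' x e‖ + c3 * (c4 * ‖ζ‖)) := by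
      calc ‖fderiv ℂ u x (Pj O' e x ζ)‖ * ‖O' x e‖ ≤
          ‖(k : ℂ)‖ * ‖fderiv ℂ u x (Pj O' e x ζ)‖ * ‖O' x e‖ := by
            gcongr
            exact le_mul_of_one_le_left (norm_nonneg _) hk1
        _ = ‖(k : ℂ) * fderiv ℂ u x (Pj O' e x ζ) * O' x e‖ := by rw [norm_mul, norm_mul]
        _ = ‖u x‖ * ‖(∑ j, fderiv ℂ (fun y => cf O' e y j ζ) x (e j)) * O' x e -
            fderiv ℂ (fun y => O' y e) x (Pj O' e x ζ)‖ := by rw [h1, norm_mul]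
        _ ≤ _ := by
          gcongr
          refine (norm_sub_le _ _).trans (add_le_add ?_ h3)
          rw [norm_mul]
          gcongr
    have hOpos : 0 < ‖O' x e‖ := norm_pos_iff.2 hO0
    have h5 : ‖fderiv ℂ u x (Pj O' e x ζ)‖ * ‖O' x e‖ ≤ (C * ‖u x‖ * ‖ζ‖) * ‖O' x e‖ := by
      refine h4.trans ?_
      have h6 : c3 * (c4 * ‖ζ‖) ≤ c3 * c4 / c2 * ‖ζ‖ * ‖O' x e‖ := by
        calc c3 * (c4 * ‖ζ‖) = c3 * c4 / c2 * ‖ζ‖ * c2 := by field_simp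
          _ ≤ _ := by gcongr
      calc _ ≤ ‖u x‖ * ((∑ j, c1 j * ‖e j‖) * ‖ζ‖ * ‖O' x e‖ +
            c3 * c4 / c2 * ‖ζ‖ * ‖O' x e‖) := by gcongr
        _ = _ := by rw [hC]; ring
    exact le_of_mul_le_mul_right h5 hOpos
  -- everywhere
  filter_upwards [ball_mem_nhds p hr] with x hx
  intro ζ
  have h1 := eq_of_eq_off (U := ball p r) isOpen_ball (u := u)
    (fun y hy => hu' y (hball y hy).1)
    (f := fun y => max (‖fderiv ℂ u y (Pj O' e y ζ)‖ - C * ‖u y‖ * ‖ζ‖) 0) (g := fun _ => 0) ?_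
    continuousOn_const ?_ x hx
  · simp only [max_eq_right_iff, sub_nonpos] at h1
    exact h1
  · intro y hy
    have hyU := (hball y hy).1
    have h2 : ContinuousAt (fun y => Pj O' e y ζ) y :=
      (analyticAt_Pj (hO' y hyU).1 (hO' y hyU).2 ζ).continuousAt
    have h2' : ContinuousAt (fderiv ℂ u) y := (hu y hyU).1.fderiv.continuousAt
    have h3 : ContinuousAt (fun y => ‖fderiv ℂ u y (Pj O' e y ζ)‖) y :=
      (h2'.clm_apply h2).norm
    have h4 : ContinuousAt (fun y => C * ‖u y‖ * ‖ζ‖) y :=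
      (continuousAt_const.mul (hu y hyU).1.continuousAt.norm).mul continuousAt_const
    have h5 : ContinuousAt (fun y => ‖fderiv ℂ u y (Pj O' e y ζ)‖ - C * ‖u y‖ * ‖ζ‖) y :=
      h3.sub h4
    have h6 : Continuous fun z : ℝ => max z 0 := by fun_prop
    exact (h6.continuousAt.comp
      (f := fun y => ‖fderiv ℂ u y (Pj O' e y ζ)‖ - C * ‖u y‖ * ‖ζ‖) h5).continuousWithinAt
  · intro y hy huy
    simp only [max_eq_right_iff, sub_nonpos]
    exact key y hy huy ζ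

end Vale.Agent.P284.H500
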