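import Vale.Agent.P284.H500.VolC
import Vale.Agent.P284.H500.Tan
import Vale.Agent.P284.H500.ExtS
import Vale.Agent.P272.K.INT.Dens

/-!
# P284 (helper500), module EXT: (T)
-/

open Set Filter Metric Topology MeasureTheory Vale.Agent.P272.K
open scoped NNReal ENNReal ContDiff

noncomputable section

namespace Vale.Agent.P284.H500

section lower

variable {E : Type*} [NormedAddCommGroup E]
  [MeasurableSpace E] [BorelSpace E] (μ : Measure E)

/-- lower bound of the mass of a slab -/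
lemma lower_slab {u : E → ℂ} {p : E} {G : E → ℝ} {s₀ : ℝ} (hs₀ : 0 < s₀) {j : ℕ}
    {R c C δ₀ : ℝ} (hc : 0 < c) (hC : 0 < C)
    (huc : ContinuousOn u (ball p R))
    (hup : ∀ δ, 0 < δ → μ (ball p R ∩ {x | ‖u x‖ < δ}) ≤ ENNReal.ofReal (C * δ ^ 2))
    (hlow : ∀ δ, 0 < δ → δ ≤ δ₀ →
        ENNReal.ofReal (c * δ ^ 2) ≤ μ (ball p R ∩ {x | ‖u x‖ < δ}))
    (hG : ∀ x ∈ ball p R, ‖u x‖ ^ j * s₀ ≤ G x) :
    ∃ c₀ > 0, ∀ δ, 0 < δ → δ ≤ δ₀ → ENNReal.ofReal (c₀ * δ ^ (2 * j + 2)) ≤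
      ∫⁻ x in ball p R ∩ {x | ‖u x‖ < δ}, ENNReal.ofReal (G x) ^ 2 ∂μ := by
  set η : ℝ := min 1 (Real.sqrt (c / (2 * C))) with hη
  have hη0 : 0 < η := lt_min one_pos (Real.sqrt_pos.2 (by positivity))
  have hη1 : η ≤ 1 := min_le_left _ _
  have hη2 : C * η ^ 2 ≤ c / 2 := by
    have h1 : η ^ 2 ≤ c / (2 * C) := by
      calc η ^ 2 ≤ Real.sqrt (c / (2 * C)) ^ 2 := by
            gcongr; exact min_le_right _ _
        _ = c / (2 * C) := Real.sq_sqrt (by positivity)
    calc C * η ^ 2 ≤ C * (c / (2 * C)) := by gcongr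
      _ = c / 2 := by field_simp
  refine ⟨(η ^ j * s₀) ^ 2 * (c / 2), by positivity, fun δ hδ hδ0 => ?_⟩
  set A := ball p R ∩ {x | ‖u x‖ < δ} with hA
  set B := ball p R ∩ {x | ‖u x‖ < η * δ} with hB
  have hBm : MeasurableSet B := by
    have : IsOpen B := by
      have h1 : B = ball p R ∩ (fun x => ‖u x‖) ⁻¹' (Iio (η * δ)) := rfl
      rw [h1]
      exact huc.norm.isOpen_inter_preimage isOpen_ball isOpen_Iio
    exact this.measurableSet
  have hBA : B ⊆ A := by
    rintro x ⟨hx1, hx2⟩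
    refine ⟨hx1, lt_of_lt_of_le (show ‖u x‖ < η * δ from hx2) ?_⟩
    calc η * δ ≤ 1 * δ := by gcongr
      _ = δ := one_mul _
  have hBf : μ B ≠ ⊤ := ne_top_of_le_ne_top ENNReal.ofReal_ne_top (hup (η * δ) (by positivity))
  have h1 : ENNReal.ofReal (c / 2 * δ ^ 2) ≤ μ (A \ B) := by
    rw [measure_sdiff hBA hBm.nullMeasurableSet hBf]
    have h2 := hup (η * δ) (by positivity)
    have h3 := hlow δ hδ hδ0
    calc ENNReal.ofReal (c / 2 * δ ^ 2) ≤ ENNReal.ofReal (c * δ ^ 2 - C * (η * δ) ^ 2) := by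
          apply ENNReal.ofReal_le_ofReal
          have : C * (η * δ) ^ 2 ≤ c / 2 * δ ^ 2 := by
            calc C * (η * δ) ^ 2 = (C * η ^ 2) * δ ^ 2 := by ring
              _ ≤ c / 2 * δ ^ 2 := by gcongr
          linarith
      _ = ENNReal.ofReal (c * δ ^ 2) - ENNReal.ofReal (C * (η * δ) ^ 2) :=
          ENNReal.ofReal_sub _ (by positivity)
      _ ≤ _ := tsub_le_tsub h3 h2
  calc ENNReal.ofReal ((η ^ j * s₀) ^ 2 * (c / 2) * δ ^ (2 * j + 2)) =
        ENNReal.ofReal (((η * δ) ^ j * s₀) ^ 2) * ENNReal.ofReal (c / 2 * δ ^ 2) := by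
        rw [← ENNReal.ofReal_mul (by positivity)]
        congr 1; ring
    _ ≤ ENNReal.ofReal (((η * δ) ^ j * s₀) ^ 2) * μ (A \ B) := by gcongr
    _ = ∫⁻ _ in A \ B, ENNReal.ofReal (((η * δ) ^ j * s₀) ^ 2) ∂μ := by
        rw [setLIntegral_const]
    _ ≤ ∫⁻ x in A \ B, ENNReal.ofReal (G x) ^ 2 ∂μ := by
        have hAm : MeasurableSet A := by
          have : IsOpen A := by
            have h1 : A = ball p R ∩ (fun x => ‖u x‖) ⁻¹' (Iio δ) := rfl
            rw [h1]
            exact huc.norm.isOpen_inter_preimage isOpen_ball isOpen_Iio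
          exact this.measurableSet
        refine setLIntegral_mono' (hAm.diff hBm) fun x hx => ?_
        rw [ENNReal.ofReal_pow (by positivity)]
        gcongr
        refine le_trans ?_ (hG x hx.1.1)
        gcongr
        by_contra hcon
        exact hx.2 ⟨hx.1.1, not_le.1 hcon⟩
    _ ≤ _ := lintegral_mono_set sdiff_subset

end lower

section upper

variable {E : Type*} [NormedAddCommGroup E] [NormedSpace ℂ E] {q : ℕ}

/-- the slice directions -/
def sl (e : Fin q → E) : Cm q →L[ℂ] E :=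
  ∑ i, (ContinuousLinearMap.proj i : Cm q →L[ℂ] ℂ).smulRight (e i)

lemma sl_apply (e : Fin q → E) (a : Cm q) : sl e a = ∑ i, a i • e i := by
  simp [sl, sum_apply]

lemma sl_single (e : Fin q → E) (i : Fin q) : sl e (Pi.single i 1) = e i := by
  rw [sl_apply, Finset.sum_eq_single i]
  · simp
  · intro j _ hj; simp [Pi.single_eq_of_ne hj]
  · intro h; exact absurd (Finset.mem_univ i) h

lemma det_slice {t : E → Cm q} {p : E} {e : Fin q → E} {a : Cm q}
    (ht : DifferentiableAt ℂ t (p + sl e a)) :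
    (fderiv ℝ (fun a => t (p + sl e a)) a).det = ‖Om t (p + sl e a) e‖ ^ 2 := by
  have h0 : HasFDerivAt (fun a => t (p + sl e a)) ((fderiv ℂ t (p + sl e a)).comp (sl e)) a :=
    ht.hasFDerivAt.comp a ((sl e).hasFDerivAt.const_add p)
  have h1 : fderiv ℝ (fun a => t (p + sl e a)) a =
      ((fderiv ℂ t (p + sl e a)).comp (sl e)).restrictScalars ℝ :=
    (h0.restrictScalars ℝ).fderiv
  have h2 : (fderiv ℝ (fun a => t (p + sl e a)) a).det = LinearMap.det
      ((((fderiv ℂ t (p + sl e a)).comp (sl e) : Cm q →L[ℂ] Cm q) :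
        Cm q →ₗ[ℂ] Cm q).restrictScalars ℝ) := by
    rw [h1]; rfl
  have h3 : LinearMap.det (((fderiv ℂ t (p + sl e a)).comp (sl e) : Cm q →L[ℂ] Cm q) :
        Cm q →ₗ[ℂ] Cm q) = Om t (p + sl e a) e := by
    rw [← LinearMap.det_toMatrix', Om]
    congr 1
    ext i j
    rw [LinearMap.toMatrix'_apply, Matrix.of_apply]
    simp only [ContinuousLinearMap.coe_coe, ContinuousLinearMap.comp_apply]
    rw [← sl_single e j]
  rw [h2, LinearMap.det_restrictScalars, h3, Algebra.norm_complex_apply,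
    Complex.normSq_eq_norm_sq]

lemma vol_slice_le {t : E → Cm q} {p : E} {e : Fin q → E} {Y : Set (Cm q)}
    (hY : MeasurableSet Y) (ht : ∀ a ∈ Y, DifferentiableAt ℂ t (p + sl e a))
    {c : ℝ} (hc : ∀ a ∈ Y, ‖Om t (p + sl e a) e‖ ^ 2 ≤ c) :
    volume ((fun a => t (p + sl e a)) '' Y) ≤ ENNReal.ofReal c * volume Y := by
  have h1 : ∀ a ∈ Y, HasFDerivWithinAt (fun a => t (p + sl e a))
      (fderiv ℝ (fun a => t (p + sl e a)) a) Y a := by
    intro a ha
    have h0 : HasFDerivAt (fun a => t (p + sl e a)) ((fderiv ℂ t (p + sl e a)).comp (sl e)) a :=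
      (ht a ha).hasFDerivAt.comp a ((sl e).hasFDerivAt.const_add p)
    exact (h0.restrictScalars ℝ).differentiableAt.hasFDerivAt.hasFDerivWithinAt
  refine (addHaar_image_le_lintegral_abs_det_fderiv volume hY h1).trans ?_
  calc _ ≤ ∫⁻ _ in Y, ENNReal.ofReal c := by
        refine setLIntegral_mono' hY fun a ha => ?_
        apply ENNReal.ofReal_le_ofReal
        rw [det_slice (ht a ha), abs_of_nonneg (by positivity)]
        exact hc a ha
    _ = _ := by rw [setLIntegral_const]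

end upper

/-- **(T)** -/
theorem tubeStmt.{v, w} : TubeStmt.{v, w} := by
  intro E _ _ _ _ _ μ _ W _ _ q k j t S S' O' u U p e hU hpU ht hu hup hu' hO' hO'e hO hS' hS'p hS
    ⟨CT, hCT, hTube⟩
  by_contra hkj
  have hkj' : j < k := not_le.1 hkj
  have hk : k ≠ 0 := by omega
  -- a ball where everything holds
  obtain ⟨R₀, hR₀, hball⟩ : ∃ R₀ > 0, ∀ x ∈ ball p R₀, x ∈ U ∧ AnalyticAt ℂ t x ∧
      (AnalyticAt ℂ u x ∧ fderiv ℂ u x ≠ 0) ∧ (AnalyticAt ℂ O' x ∧ O' x e ≠ 0) ∧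
      (∀ ξ, Om t x ξ = u x ^ k * O' x ξ) ∧ ‖O' x e‖ < ‖O' p e‖ + 1 ∧ ‖S' p‖ / 2 < ‖S' x‖ ∧
      S x = u x ^ j • S' x := by
    rw [← Metric.eventually_nhds_iff_ball]
    have h1 : ContinuousAt (fun x => O' x e) p := (analyticAt_apply hO' e).continuousAt
    have h2 : ∀ᶠ x in 𝓝 p, ‖S' p‖ / 2 < ‖S' x‖ := by
      have : 0 < ‖S' p‖ := norm_pos_iff.2 hS'p
      exact hS'.norm.eventually (lt_mem_nhds (by linarith))
    filter_upwards [hU.mem_nhds hpU, ht.eventually_analyticAt, hu.eventually_analyticAt,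
      hu.fderiv.continuousAt.eventually_ne hu', hO'.eventually_analyticAt,
      h1.eventually_ne hO'e, hO, h1.norm.eventually (gt_mem_nhds (lt_add_one _)), h2, hS]
      with x a1 a2 a3 a4 a5 a6 a7 a8 a9 a10
    exact ⟨a1, a2, ⟨a3, a4⟩, ⟨a5, a6⟩, a7, a8, a9, a10⟩
  have hpB : p ∈ ball p R₀ := mem_ball_self hR₀
  have hnB : ball p R₀ ∈ 𝓝 p := ball_mem_nhds p hR₀
  -- tangency
  obtain ⟨C₁, hC₁, htan⟩ := tangent (U := ball p R₀) (fun x hx => (hball x hx).2.2.1) isOpen_ball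
    hpB hk (fun x hx => (hball x hx).2.1) (fun x hx => (hball x hx).2.2.2.1)
    (fun x hx => (hball x hx).2.2.2.2.1)
  have hkill := fderiv_Pj (U := ball p R₀) (u := u) (k := k)
    (fun x hx => ⟨(hball x hx).2.2.1.1.differentiableAt, (hball x hx).2.2.1.2⟩) isOpen_ball
    (fun x hx => (hball x hx).2.1) (fun x hx => (hball x hx).2.2.2.1)
    (fun x hx => (hball x hx).2.2.2.2.1)
  -- `u` is not critical along the slice
  obtain ⟨i₀, hi₀⟩ : ∃ i, fderiv ℂ u p (e i) ≠ 0 := by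
    by_contra hcon
    push Not at hcon
    apply hu'
    ext ζ
    have h1 := htan.self_of_nhds ζ
    rw [hup, norm_zero, mul_zero, zero_mul] at h1
    have h2 : fderiv ℂ u p (Pj O' e p ζ) = 0 := norm_le_zero_iff.1 h1
    rw [Pj_apply, map_sub, map_sum] at h2
    simp only [map_smul, hcon, smul_zero, Finset.sum_const_zero, sub_zero] at h2
    exact h2
  -- the slice
  have hind : LinearIndependent ℂ e := by
    by_contra hcon
    exact hO'e ((O' p).toAlternatingMap.map_linearDependent e hcon)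
  obtain ⟨L₀, hL₀⟩ := LinearMap.exists_leftInverse_of_injective (sl e : Cm q →ₗ[ℂ] E) (by
    rw [LinearMap.ker_eq_bot']
    intro a ha
    have h1 : ∑ i, a i • e i = 0 := by rw [← sl_apply]; exact ha
    funext i
    exact Fintype.linearIndependent_iff.1 hind a h1 i)
  set L' : E →L[ℂ] Cm q := LinearMap.toContinuousLinearMap L₀ with hL'
  have hL'sl : ∀ a, L' (sl e a) = a := fun a => DFunLike.congr_fun hL₀ a
  set g : Cm q → ℂ := fun a => u (p + sl e a) with hg
  have hg0 : g 0 = 0 := by simp only [hg, map_zero, add_zero, hup]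
  have hua : AnalyticAt ℂ u (p + sl e (0 : Cm q)) := by rw [map_zero, add_zero]; exact hu
  have hsla : AnalyticAt ℂ (fun a : Cm q => p + sl e a) 0 :=
    analyticAt_const.add ((sl e).analyticAt _)
  have hga : AnalyticAt ℂ g 0 := AnalyticAt.comp hua hsla
  have hg' : fderiv ℂ g 0 ≠ 0 := by
    have h1 : HasFDerivAt g ((fderiv ℂ u p).comp (sl e)) 0 := by
      have h2 : HasFDerivAt u (fderiv ℂ u p) (p + sl e (0 : Cm q)) := by
        rw [map_zero, add_zero]; exact hu.differentiableAt.hasFDerivAt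
      exact h2.comp (0 : Cm q) ((sl e).hasFDerivAt.const_add p)
    rw [h1.fderiv]
    intro h2
    have h3 := DFunLike.congr_fun h2 (Pi.single i₀ 1)
    rw [ContinuousLinearMap.comp_apply, sl_single] at h3
    exact hi₀ h3
  obtain ⟨R₁, hR₁, hslab₁⟩ := vol_slabC μ hu hup hu'
  obtain ⟨R₂, hR₂, hslab₂⟩ := vol_slabC (volume : Measure (Cm q)) hga hg0 hg'
  -- radii
  set K : ℝ := ‖sl e‖ + 1 with hK
  set K' : ℝ := ‖L'‖ + 1 with hK'
  have hK0 : 1 ≤ K := by rw [hK]; linarith [norm_nonneg (sl e)]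
  have hK'0 : 1 ≤ K' := by rw [hK']; linarith [norm_nonneg L']
  set ρ : ℝ := min (R₀ / (2 * K * K')) (R₂ / K') with hρ
  have hρ0 : 0 < ρ := lt_min (by positivity) (by positivity)
  have hKρ : K * (K' * ρ) < R₀ := by
    calc K * (K' * ρ) ≤ K * (K' * (R₀ / (2 * K * K'))) := by gcongr; exact min_le_left _ _
      _ = R₀ / 2 := by field_simp
      _ < R₀ := by linarith
  have hρR₂ : K' * ρ ≤ R₂ := by
    calc K' * ρ ≤ K' * (R₂ / K') := by gcongr; exact min_le_right _ _
      _ = R₂ := by field_simp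
  obtain ⟨r₁, hr₁, hflow⟩ := flow_to_slice (t := t) (u := u) (P := Pj O' e) (p := p)
    (V := Submodule.span ℂ (range e)) hC₁
    (ht.eventually_analyticAt.mono fun x hx => hx.differentiableAt)
    (((contDiffOn_Pj (U := ball p R₀) (fun x hx => (hball x hx).2.2.2.1)).contDiffAt
      hnB).of_le (by norm_num))
    (by filter_upwards [hnB] with x hx ζ using hkill ζ x hx)
    (Eventually.of_forall fun x ζ => Pj_sub_mem O' e x ζ)
    (hu.eventually_analyticAt.mono fun x hx => hx.differentiableAt) htan hρ0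
  set R : ℝ := min (min r₁ R₀) R₁ with hR
  have hR0 : 0 < R := lt_min (lt_min hr₁ hR₀) hR₁
  have hRr₁ : R ≤ r₁ := (min_le_left _ _).trans (min_le_left _ _)
  have hRR₀ : R ≤ R₀ := (min_le_left _ _).trans (min_le_right _ _)
  obtain ⟨c, C, δ₀, hc, hC, hδ₀, hu1, hl1⟩ := hslab₁ R hR0 (min_le_right _ _)
  obtain ⟨-, C₂, -, -, hC₂, -, hu2, -⟩ := hslab₂ (K' * ρ) (by positivity) hρR₂
  -- lower bound
  obtain ⟨c₀, hc₀, hlow⟩ := lower_slab μ (u := u) (G := fun x => ‖S x‖) (s₀ := ‖S' p‖ / 2)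
    (j := j) (by have := norm_pos_iff.2 hS'p; positivity) hc hC
    (fun x hx => (hball x (ball_subset_ball hRR₀ hx)).2.2.1.1.continuousAt.continuousWithinAt)
    hu1 hl1 (fun x hx => by
      obtain ⟨-, -, -, -, -, -, h1, h2⟩ := hball x (ball_subset_ball hRR₀ hx)
      rw [h2, norm_smul, norm_pow]
      gcongr)
  -- upper bound
  set M : ℝ := ‖O' p e‖ + 1 with hM
  have hM0 : 0 < M := by positivity
  set X : ℝ := Real.exp C₁ with hX
  have hX0 : 0 < X := Real.exp_pos _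
  have hupp : ∀ δ, 0 < δ → volume (t '' (ball p R ∩ {x | ‖u x‖ < δ})) ≤
      ENNReal.ofReal (((X * δ) ^ k * M) ^ 2) * ENNReal.ofReal (C₂ * (X * δ) ^ 2) := by
    intro δ hδ
    set Y : Set (Cm q) := ball 0 (K' * ρ) ∩ {a | ‖g a‖ < X * δ} with hY
    have hin : ∀ a ∈ ball (0 : Cm q) (K' * ρ), p + sl e a ∈ ball p R₀ := by
      intro a ha
      rw [mem_ball, dist_eq_norm, add_sub_cancel_left]
      rw [mem_ball_zero_iff] at ha
      calc ‖sl e a‖ ≤ ‖sl e‖ * ‖a‖ := (sl e).le_opNorm a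
        _ ≤ K * (K' * ρ) := by gcongr; rw [hK]; linarith
        _ < R₀ := hKρ
    have hYm : MeasurableSet Y := by
      have h1 : IsOpen Y := by
        have h2 : Y = ball 0 (K' * ρ) ∩ (fun a => ‖g a‖) ⁻¹' (Iio (X * δ)) := rfl
        rw [h2]
        refine ContinuousOn.isOpen_inter_preimage ?_ isOpen_ball isOpen_Iio
        intro a ha
        have h3 : ContinuousAt u (p + sl e a) := (hball _ (hin a ha)).2.2.1.1.continuousAt
        have h4 : ContinuousAt (fun a : Cm q => p + sl e a) a := by fun_prop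
        exact (ContinuousAt.comp (f := fun a : Cm q => p + sl e a) h3 h4).norm.continuousWithinAt
      exact h1.measurableSet
    have hsub : t '' (ball p R ∩ {x | ‖u x‖ < δ}) ⊆ (fun a => t (p + sl e a)) '' Y := by
      rintro _ ⟨x, ⟨hx1, hx2⟩, rfl⟩
      obtain ⟨y, hy1, hy2, hy3, hy4⟩ := hflow x (ball_subset_ball hRr₁ hx1)
      rw [Submodule.mem_span_range_iff_exists_fun] at hy2
      obtain ⟨a, ha⟩ := hy2
      have ha' : sl e a = y - p := by rw [sl_apply]; exact ha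
      have hya : p + sl e a = y := by rw [ha']; abel
      refine ⟨a, ⟨?_, ?_⟩, ?_⟩
      · rw [mem_ball_zero_iff]
        have h1 : ‖y - p‖ < ρ := by rw [← dist_eq_norm]; exact hy1
        calc ‖a‖ = ‖L' (y - p)‖ := by rw [← ha', hL'sl]
          _ ≤ ‖L'‖ * ‖y - p‖ := L'.le_opNorm _
          _ ≤ ‖L'‖ * ρ := by gcongr
          _ < K' * ρ := by gcongr; rw [hK']; linarith
      · show ‖u (p + sl e a)‖ < X * δ
        rw [hya]
        calc ‖u y‖ ≤ X * ‖u x‖ := hy4
          _ < X * δ := by gcongr; exact hx2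
      · show t (p + sl e a) = t x
        rw [hya, hy3]
    refine (measure_mono hsub).trans ((vol_slice_le hYm
      (fun a ha => (hball _ (hin a ha.1)).2.1.differentiableAt)
      (c := ((X * δ) ^ k * M) ^ 2) ?_).trans ?_)
    · intro a ha
      obtain ⟨-, -, -, -, h1, h2, -, -⟩ := hball _ (hin a ha.1)
      rw [h1 e, norm_mul, norm_pow]
      have h3 : ‖u (p + sl e a)‖ < X * δ := ha.2
      gcongr
    · gcongr
      exact hu2 (X * δ) (by positivity)
  -- conclusion
  set A : ℝ := CT.toReal * (X ^ (2 * k + 2) * M ^ 2 * C₂ + 1) with hA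
  have hA0 : 0 ≤ A := by positivity
  have hmain : ∀ δ, 0 < δ → δ ≤ δ₀ → c₀ * δ ^ (2 * j + 2) ≤ A * δ ^ (2 * k + 2) := by
    intro δ hδ hδ0
    obtain ⟨T, hT1, hT2, hT3⟩ := Set.exists_isOpen_le_add (t '' (ball p R ∩ {x | ‖u x‖ < δ}))
      (volume : Measure (Cm q)) (ε := ENNReal.ofReal (δ ^ (2 * k + 2)))
      (by rw [Ne, ENNReal.ofReal_eq_zero, not_le]; positivity)
    have h1 := hTube T hT2
    have h2 : ∫⁻ x in ball p R ∩ {x | ‖u x‖ < δ}, ENNReal.ofReal ‖S x‖ ^ 2 ∂μ ≤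
        ∫⁻ x in U ∩ t ⁻¹' T, ‖S x‖ₑ ^ 2 ∂μ := by
      simp only [ofReal_norm]
      refine lintegral_mono_set ?_
      intro x hx
      exact ⟨(hball x (ball_subset_ball hRR₀ hx.1)).1, hT1 ⟨x, hx, rfl⟩⟩
    have h3 := (hlow δ hδ hδ0).trans (h2.trans h1)
    have h4 : CT * volume T ≤ ENNReal.ofReal (A * δ ^ (2 * k + 2)) := by
      calc CT * volume T ≤ CT * (ENNReal.ofReal (((X * δ) ^ k * M) ^ 2) *
            ENNReal.ofReal (C₂ * (X * δ) ^ 2) + ENNReal.ofReal (δ ^ (2 * k + 2))) := by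
            gcongr
            exact hT3.trans (add_le_add (hupp δ hδ) le_rfl)
        _ = _ := by
            rw [hA, ← ENNReal.ofReal_mul (by positivity), ← ENNReal.ofReal_add (by positivity)
              (by positivity), mul_assoc CT.toReal, ENNReal.ofReal_mul ENNReal.toReal_nonneg,
              ENNReal.ofReal_toReal hCT]
            congr 2
            ring
    exact (ENNReal.ofReal_le_ofReal_iff (by positivity)).1 (h3.trans h4)
  set δ : ℝ := min (min δ₀ 1) (c₀ / (2 * (A + 1))) with hδ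
  have hδ0 : 0 < δ := lt_min (lt_min hδ₀ one_pos) (by positivity)
  have h1 := hmain δ hδ0 ((min_le_left _ _).trans (min_le_left _ _))
  have hδ1 : δ ≤ 1 := (min_le_left _ _).trans (min_le_right _ _)
  have h2 : δ ^ (2 * k + 2) ≤ δ ^ (2 * j + 2) * δ := by
    rw [← pow_succ]
    exact pow_le_pow_of_le_one hδ0.le hδ1 (by omega)
  have h3 : A * δ ≤ c₀ / 2 := by
    calc A * δ ≤ (A + 1) * (c₀ / (2 * (A + 1))) := by
          gcongr
          · linarith
          · exact min_le_right _ _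
      _ = c₀ / 2 := by field_simp
  have h4 : c₀ * δ ^ (2 * j + 2) ≤ c₀ / 2 * δ ^ (2 * j + 2) := by
    calc _ ≤ A * δ ^ (2 * k + 2) := h1
      _ ≤ A * (δ ^ (2 * j + 2) * δ) := by gcongr
      _ = A * δ * δ ^ (2 * j + 2) := by ring
      _ ≤ _ := by gcongr
  have h5 : 0 < δ ^ (2 * j + 2) := by positivity
  have h6 := le_of_mul_le_mul_right h4 h5
  linarith

end Vale.Agent.P284.H500
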