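import Vale.Agent.P284.H500.LineB

/-!
# P284 (helper500), module EXT: division by `u`
-/

open Set Filter Metric Topology

namespace Vale.Agent.P284.H500

variable {E : Type*} [NormedAddCommGroup E] [NormedSpace ℂ E] [FiniteDimensional ℂ E]
  {W : Type*} [NormedAddCommGroup W] [NormedSpace ℂ W] [CompleteSpace W]

/-- a holomorphic `F` which vanishes on the smooth hypersurface `u = 0` is divisible by `u` -/
theorem exists_div {u : E → ℂ} {F : E → W} {a : E} (hu : AnalyticAt ℂ u a)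
    (hu' : fderiv ℂ u a ≠ 0) (hF : AnalyticAt ℂ F a) (h : ∀ᶠ x in 𝓝 a, u x = 0 → F x = 0) :
    ∃ F' : E → W, AnalyticAt ℂ F' a ∧ ∀ᶠ x in 𝓝 a, F x = u x • F' x := by
  obtain ⟨v, hv⟩ : ∃ v, fderiv ℂ u a v ≠ 0 := by
    by_contra hcon
    push Not at hcon
    exact hu' (ContinuousLinearMap.ext hcon)
  have hd : ∀ x, DifferentiableAt ℂ u x → HasDerivAt (fun τ : ℂ => u (x + τ • v))
      (fderiv ℂ u x v) 0 := by
    intro x hx
    have h3 : HasDerivAt (fun τ : ℂ => x + τ • v) v 0 := by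
      have := ((hasDerivAt_id (0 : ℂ)).smul_const v).const_add x
      simpa using this
    have h5 : HasFDerivAt u (fderiv ℂ u x) (x + (0 : ℂ) • v) := by
      rw [zero_smul, add_zero]; exact hx.hasFDerivAt
    exact h5.comp_hasDerivAt (0 : ℂ) h3
  have hd' : ∀ (x : E) (t : ℂ), DifferentiableAt ℂ u (x + t • v) →
      HasDerivAt (fun τ : ℂ => u (x + τ • v)) (fderiv ℂ u (x + t • v) v) t := by
    intro x t hx
    have h3 : HasDerivAt (fun τ : ℂ => x + τ • v) v t := by
      have := ((hasDerivAt_id t).smul_const v).const_add x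
      simpa using this
    exact hx.hasFDerivAt.comp_hasDerivAt t h3
  obtain ⟨r, hr, hball⟩ : ∃ r > 0, ∀ x ∈ ball a r, AnalyticAt ℂ u x ∧ fderiv ℂ u x v ≠ 0 ∧
      AnalyticAt ℂ F x ∧ (u x = 0 → F x = 0) := by
    rw [← Metric.eventually_nhds_iff_ball]
    have h1 : ContinuousAt (fun x => fderiv ℂ u x v) a :=
      hu.fderiv.continuousAt.clm_apply continuousAt_const
    filter_upwards [hu.eventually_analyticAt, h1.eventually_ne hv, hF.eventually_analyticAt, h]
      with x a1 a2 a3 a4 using ⟨a1, a2, a3, a4⟩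
  have hDense : Dense {z : E | (∃ t : ℂ, z + t • v ∈ ball a r ∧ u (z + t • v) ≠ 0) →
      ∀ t : ℂ, z + t • v ∈ ball a r → ∃ C : ℝ, ∀ᶠ τ in 𝓝[≠] t,
        ‖F (z + τ • v)‖ ≤ C * ‖u (z + τ • v)‖} := by
    have huniv : {z : E | (∃ t : ℂ, z + t • v ∈ ball a r ∧ u (z + t • v) ≠ 0) →
      ∀ t : ℂ, z + t • v ∈ ball a r → ∃ C : ℝ, ∀ᶠ τ in 𝓝[≠] t,
        ‖F (z + τ • v)‖ ≤ C * ‖u (z + τ • v)‖} = univ := by
      refine eq_univ_of_forall fun z => ?_
      intro _ t ht
      obtain ⟨b1, b2, b3, b4⟩ := hball _ ht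
      have hc : ContinuousAt (fun τ : ℂ => z + τ • v) t := by fun_prop
      have hFc : ContinuousAt (fun τ : ℂ => F (z + τ • v)) t :=
        ContinuousAt.comp (f := fun τ : ℂ => z + τ • v) b3.continuousAt hc
      have huc : ContinuousAt (fun τ : ℂ => u (z + τ • v)) t :=
        ContinuousAt.comp (f := fun τ : ℂ => z + τ • v) b1.continuousAt hc
      by_cases h0 : u (z + t • v) = 0
      · have hF0 := b4 h0
        have h3 : HasDerivAt (fun τ : ℂ => z + τ • v) v t := by
          have := ((hasDerivAt_id t).smul_const v).const_add z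
          simpa using this
        have h4 : HasDerivAt (fun τ : ℂ => F (z + τ • v)) (fderiv ℂ F (z + t • v) v) t :=
          b3.differentiableAt.hasFDerivAt.comp_hasDerivAt t h3
        have h5 : HasDerivAt (fun τ : ℂ => u (z + τ • v)) (fderiv ℂ u (z + t • v) v) t :=
          hd' z t b1.differentiableAt
        have h6 := hasDerivAt_iff_isLittleO.1 h4
        have h7 := hasDerivAt_iff_isLittleO.1 h5
        simp only [hF0, h0, sub_zero] at h6 h7
        set c := ‖fderiv ℂ u (z + t • v) v‖ with hc'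
        have hc0 : 0 < c := norm_pos_iff.2 b2
        have h8 := (h6.bound one_pos)
        have h9 := (h7.bound (half_pos hc0))
        refine ⟨(‖fderiv ℂ F (z + t • v) v‖ + 1) / (c / 2), ?_⟩
        filter_upwards [mem_nhdsWithin_of_mem_nhds h8, mem_nhdsWithin_of_mem_nhds h9]
          with τ e1 e2
        have e1' : ‖F (z + τ • v) - (τ - t) • fderiv ℂ F (z + t • v) v‖ ≤ 1 * ‖τ - t‖ := e1
        have e2' : ‖u (z + τ • v) - (τ - t) • fderiv ℂ u (z + t • v) v‖ ≤ c / 2 * ‖τ - t‖ := e2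
        have e3 : ‖F (z + τ • v)‖ ≤ (‖fderiv ℂ F (z + t • v) v‖ + 1) * ‖τ - t‖ := by
          calc ‖F (z + τ • v)‖ = ‖(F (z + τ • v) - (τ - t) • fderiv ℂ F (z + t • v) v) +
                (τ - t) • fderiv ℂ F (z + t • v) v‖ := by rw [sub_add_cancel]
            _ ≤ ‖F (z + τ • v) - (τ - t) • fderiv ℂ F (z + t • v) v‖ +
                ‖(τ - t) • fderiv ℂ F (z + t • v) v‖ := norm_add_le _ _
            _ ≤ 1 * ‖τ - t‖ + ‖τ - t‖ * ‖fderiv ℂ F (z + t • v) v‖ := by
                rw [norm_smul]; exact add_le_add e1' le_rfl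
            _ = _ := by ring
        have e4 : c / 2 * ‖τ - t‖ ≤ ‖u (z + τ • v)‖ := by
          have e5 : ‖(τ - t) • fderiv ℂ u (z + t • v) v‖ ≤ ‖u (z + τ • v)‖ +
              ‖u (z + τ • v) - (τ - t) • fderiv ℂ u (z + t • v) v‖ := by
            calc _ = ‖u (z + τ • v) - (u (z + τ • v) - (τ - t) • fderiv ℂ u (z + t • v) v)‖ := by
                  rw [sub_sub_cancel]
              _ ≤ _ := norm_sub_le _ _
          rw [norm_smul] at e5
          nlinarith
        calc ‖F (z + τ • v)‖ ≤ (‖fderiv ℂ F (z + t • v) v‖ + 1) * ‖τ - t‖ := e3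
          _ = (‖fderiv ℂ F (z + t • v) v‖ + 1) / (c / 2) * (c / 2 * ‖τ - t‖) := by field_simp
          _ ≤ _ := by gcongr
      · have hpos : 0 < ‖u (z + t • v)‖ := norm_pos_iff.2 h0
        have h1 : ∀ᶠ τ in 𝓝 t, ‖F (z + τ • v)‖ < ‖F (z + t • v)‖ + 1 :=
          hFc.norm.eventually (gt_mem_nhds (lt_add_one _))
        have h2 : ∀ᶠ τ in 𝓝 t, ‖u (z + t • v)‖ / 2 < ‖u (z + τ • v)‖ :=
          huc.norm.eventually (lt_mem_nhds (by linarith))
        refine ⟨(‖F (z + t • v)‖ + 1) / (‖u (z + t • v)‖ / 2), ?_⟩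
        filter_upwards [mem_nhdsWithin_of_mem_nhds h1, mem_nhdsWithin_of_mem_nhds h2] with τ e1 e2
        calc ‖F (z + τ • v)‖ ≤ ‖F (z + t • v)‖ + 1 := e1.le
          _ = (‖F (z + t • v)‖ + 1) / (‖u (z + t • v)‖ / 2) * (‖u (z + t • v)‖ / 2) := by
              field_simp
          _ ≤ _ := by gcongr
    rw [huniv]
    exact dense_univ
  obtain ⟨ρ, hρ, -, ψ, hψ, hψ'⟩ := line_extB (ω := u) (Φ := F) (x₀ := a) hr (u := v)
    (fun x hx => (hball x hx).1.differentiableAt.differentiableWithinAt)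
    (fun x hx => (hball x hx).2.2.1.differentiableAt.differentiableWithinAt)
    ((hd a hu.differentiableAt).eventually_ne hv) hDense
  exact ⟨ψ, Vale.Agent.P268.analyticAt_of_differentiableOn isOpen_ball hψ (mem_ball_self hρ),
    by filter_upwards [ball_mem_nhds a hρ] with x hx using (hψ' x hx).symm⟩

end Vale.Agent.P284.H500
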