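import Vale.Agent.P284.H494.Line

/-!
# P284 (helper500), module EXT: quotients along lines, Banach values
-/

open Set Filter Metric Topology

namespace Vale.Agent.P284.H500

/-- **Quotients along lines.** `ω` is holomorphic near `x₀` and not identically zero on the line
`x₀ + ℂ u`; if for a dense set of `z` the restriction of `Φ / ω` to the line `z + ℂ u` is locally
bounded, then `Φ = ω ψ` near `x₀`, with `ψ` holomorphic. -/
theorem line_extB {P W : Type*} [NormedAddCommGroup P] [NormedSpace ℂ P] [FiniteDimensional ℂ P]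
    [NormedAddCommGroup W] [NormedSpace ℂ W] [CompleteSpace W]
    {ω : P → ℂ} {Φ : P → W} {x₀ : P} {r : ℝ} (hr : 0 < r) {u : P}
    (hω : DifferentiableOn ℂ ω (ball x₀ r)) (hΦ : DifferentiableOn ℂ Φ (ball x₀ r))
    (hu : ∀ᶠ τ in 𝓝[≠] (0 : ℂ), ω (x₀ + τ • u) ≠ 0)
    (hD : Dense {z : P | (∃ t : ℂ, z + t • u ∈ ball x₀ r ∧ ω (z + t • u) ≠ 0) →
      ∀ t : ℂ, z + t • u ∈ ball x₀ r → ∃ C : ℝ, ∀ᶠ τ in 𝓝[≠] t,
        ‖Φ (z + τ • u)‖ ≤ C * ‖ω (z + τ • u)‖}) :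
    ∃ ρ > 0, ρ ≤ r ∧ ∃ ψ : P → W, DifferentiableOn ℂ ψ (ball x₀ ρ) ∧
      ∀ z ∈ ball x₀ ρ, ω z • ψ z = Φ z := by
  -- a circle without zeros
  obtain ⟨s, hs, hsr, hcirc⟩ : ∃ s : ℝ, 0 < s ∧ s * ‖u‖ < r ∧
      ∀ t : ℂ, ‖t‖ = s → ω (x₀ + t • u) ≠ 0 := by
    rw [eventually_nhdsWithin_iff, Metric.eventually_nhds_iff_ball] at hu
    obtain ⟨δ, hδ, h⟩ := hu
    have hu1 : 0 < ‖u‖ + 1 := by positivity
    refine ⟨min (δ / 2) (r / (‖u‖ + 1) / 2), by positivity, ?_, ?_⟩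
    · calc min (δ / 2) (r / (‖u‖ + 1) / 2) * ‖u‖ ≤ (r / (‖u‖ + 1) / 2) * ‖u‖ := by
            gcongr; exact min_le_right _ _
        _ ≤ (r / (‖u‖ + 1) / 2) * (‖u‖ + 1) := by gcongr; linarith
        _ = r / 2 := by field_simp
        _ < r := by linarith
    · intro t ht
      apply h t
      · rw [mem_ball_zero_iff, ht]
        exact (min_le_left _ _).trans_lt (by linarith)
      · rw [Set.mem_compl_iff, Set.mem_singleton_iff]
        intro h4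
        rw [h4, norm_zero] at ht
        have : (0 : ℝ) < min (δ / 2) (r / (‖u‖ + 1) / 2) := by positivity
        linarith
  -- the open set where `ω ≠ 0`
  have hOo : IsOpen (ball x₀ r ∩ {z | ω z ≠ 0}) := by
    have : ball x₀ r ∩ {z | ω z ≠ 0} = ball x₀ r ∩ ω ⁻¹' {0}ᶜ := by
      ext z; simp
    rw [this]
    exact hω.continuousOn.isOpen_inter_preimage isOpen_ball isOpen_compl_singleton
  have hΨc : Continuous (fun q : P × ℂ => q.1 + q.2 • u) := by fun_prop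
  have htube : ({x₀} : Set P) ×ˢ sphere (0 : ℂ) s ⊆
      (fun q : P × ℂ => q.1 + q.2 • u) ⁻¹' (ball x₀ r ∩ {z | ω z ≠ 0}) := by
    rintro ⟨z, t⟩ ⟨hz, ht⟩
    rw [Set.mem_singleton_iff] at hz
    rw [mem_sphere_zero_iff_norm] at ht
    subst hz
    refine ⟨?_, hcirc t ht⟩
    rw [mem_ball, dist_eq_norm, add_sub_cancel_left, norm_smul, ht]
    exact hsr
  obtain ⟨A, T, hA, hT, hpA, hsT, hAT⟩ := generalized_tube_lemma isCompact_singleton
    (isCompact_sphere (0 : ℂ) s) (hOo.preimage hΨc) htube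
  obtain ⟨ρ₁, hρ₁, hρA⟩ := Metric.isOpen_iff.1 hA x₀ (hpA rfl)
  obtain ⟨s', hss', hs'r⟩ : ∃ s' : ℝ, s < s' ∧ s' * ‖u‖ < r := by
    have h1 : ContinuousAt (fun s' : ℝ => s' * ‖u‖) s := by fun_prop
    have h2 : ∀ᶠ s' in 𝓝[>] s, s' * ‖u‖ < r :=
      (h1.eventually (gt_mem_nhds hsr)).filter_mono nhdsWithin_le_nhds
    obtain ⟨s', h3, h4⟩ := (h2.and self_mem_nhdsWithin).exists
    exact ⟨s', h4, h3⟩
  set ρ : ℝ := min (min ρ₁ r) (r - s' * ‖u‖) with hρdef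
  have hρ0 : 0 < ρ := lt_min (lt_min hρ₁ hr) (by linarith)
  have hρr : ρ ≤ r := (min_le_left _ _).trans (min_le_right _ _)
  have hATO : ∀ z ∈ ball x₀ ρ, ∀ t ∈ T, z + t • u ∈ ball x₀ r ∩ {z | ω z ≠ 0} := by
    intro z hz t ht
    have hzA : z ∈ A := hρA (ball_subset_ball ((min_le_left _ _).trans (min_le_left _ _)) hz)
    exact hAT (Set.mk_mem_prod hzA ht)
  have hin : ∀ z ∈ ball x₀ ρ, ∀ t ∈ ball (0 : ℂ) s', z + t • u ∈ ball x₀ r := by
    intro z hz t ht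
    rw [mem_ball_zero_iff] at ht
    rw [mem_ball, dist_eq_norm] at hz ⊢
    have h1 : ‖t • u‖ ≤ s' * ‖u‖ := by
      rw [norm_smul]; gcongr
    have h2 : ρ ≤ r - s' * ‖u‖ := min_le_right _ _
    calc ‖z + t • u - x₀‖ = ‖(z - x₀) + t • u‖ := by congr 1; abel
      _ ≤ ‖z - x₀‖ + ‖t • u‖ := norm_add_le _ _
      _ < r := by linarith
  have hT' : IsOpen (T \ {0}) := hT.sdiff isClosed_singleton
  have hsT' : sphere (0 : ℂ) s ⊆ T \ {0} := by
    intro t ht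
    refine ⟨hsT ht, ?_⟩
    rw [Set.mem_singleton_iff]
    intro h0
    rw [mem_sphere_zero_iff_norm, h0, norm_zero] at ht
    exact hs.ne ht
  set ψ : P → W := fun z => (2 * Real.pi * Complex.I : ℂ)⁻¹ •
      ∮ t in C(0, s), t⁻¹ • (ω (z + t • u))⁻¹ • Φ (z + t • u) with hψ
  have hFd : DifferentiableOn ℂ ψ (ball x₀ ρ) := by
    refine (Vale.Agent.P268.differentiableOn_circleIntegral
      (G := fun q : P × ℂ => q.2⁻¹ • (ω (q.1 + q.2 • u))⁻¹ • Φ (q.1 + q.2 • u)) hs.le isOpen_ball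
      hT' hsT' ?_).const_smul (2 * Real.pi * Complex.I : ℂ)⁻¹
    have hmaps : MapsTo (fun q : P × ℂ => q.1 + q.2 • u) (ball x₀ ρ ×ˢ (T \ {0})) (ball x₀ r) := by
      rintro ⟨z, t⟩ ⟨hz, ht⟩
      exact (hATO z hz t ht.1).1
    apply DifferentiableOn.smul
    · apply DifferentiableOn.inv (by fun_prop)
      intro q hq
      exact hq.2.2
    · apply DifferentiableOn.smul
      · apply DifferentiableOn.inv (hω.comp (by fun_prop) hmaps)
        rintro ⟨z, t⟩ ⟨hz, ht⟩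
        exact (hATO z hz t ht.1).2
      · exact hΦ.comp (by fun_prop) hmaps
  refine ⟨ρ, hρ0, hρr, ψ, hFd, ?_⟩
  intro z₁ hz₁
  set D : Set P := {z : P | (∃ t : ℂ, z + t • u ∈ ball x₀ r ∧ ω (z + t • u) ≠ 0) →
      ∀ t : ℂ, z + t • u ∈ ball x₀ r → ∃ C : ℝ, ∀ᶠ τ in 𝓝[≠] t,
        ‖Φ (z + τ • u)‖ ≤ C * ‖ω (z + τ • u)‖} with hDdef
  -- the identity on a dense set
  have hkey : ∀ z ∈ ball x₀ ρ ∩ D, ω z • ψ z = Φ z := by
    rintro z ⟨hz, hzD⟩
    have hsm : (s : ℂ) ∈ sphere (0 : ℂ) s := by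
      rw [mem_sphere_zero_iff_norm, Complex.norm_real, Real.norm_eq_abs, abs_of_pos hs]
    have h1 := hzD ⟨s, hATO z hz s (hsT hsm)⟩
    have hm : MapsTo (fun t : ℂ => z + t • u) (ball 0 s') (ball x₀ r) := fun t ht => hin z hz t ht
    have h2 := H494.cauchy_quot (k := fun t => ω (z + t • u)) (Φ := fun t => Φ (z + t • u))
      hs hss' (hω.comp (by fun_prop) hm) (hΦ.comp (by fun_prop) hm)
      (fun t ht => (hATO z hz t (hsT ht)).2) (fun t ht => h1 t (hin z hz t ht))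
    simp only [zero_smul, add_zero] at h2
    exact h2
  have hcl : z₁ ∈ closure (ball x₀ ρ ∩ D) :=
    hD.open_subset_closure_inter isOpen_ball hz₁
  have : (𝓝[ball x₀ ρ ∩ D] z₁).NeBot := mem_closure_iff_nhdsWithin_neBot.1 hcl
  have hz₁n : ball x₀ ρ ∈ 𝓝 z₁ := isOpen_ball.mem_nhds hz₁
  have hz₁r : ball x₀ r ∈ 𝓝 z₁ := isOpen_ball.mem_nhds (ball_subset_ball hρr hz₁)
  have hc1 : ContinuousAt (fun z => ω z • ψ z) z₁ :=
    (hω.differentiableAt hz₁r).continuousAt.smul (hFd.differentiableAt hz₁n).continuousAt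
  have hc2 : ContinuousAt Φ z₁ := (hΦ.differentiableAt hz₁r).continuousAt
  refine tendsto_nhds_unique (l := 𝓝[ball x₀ ρ ∩ D] z₁)
    (hc1.tendsto.mono_left nhdsWithin_le_nhds) ?_
  refine (hc2.tendsto.mono_left nhdsWithin_le_nhds).congr' ?_
  filter_upwards [self_mem_nhdsWithin] with z hz using (hkey z hz).symm

end Vale.Agent.P284.H500
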