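import Vale.Agent.P284.H500.LineB
import Vale.Agent.P284.H500.ExtS

/-!
# P284 (helper500), module EXT: (A) from (G)
-/

open Set Filter Metric Topology MeasureTheory Vale.Agent.P272.K
open scoped NNReal ENNReal

noncomputable section

namespace Vale.Agent.P284.H500

variable {E : Type*} [NormedAddCommGroup E] [NormedSpace ℂ E] {q : ℕ}

/-- the minors of a holomorphic map are holomorphic -/
lemma analyticAt_Om {t : E → Cm q} {x : E} (ht : AnalyticAt ℂ t x) (e : Fin q → E) :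
    AnalyticAt ℂ (fun y => Om t y e) x := by
  have : (fun y => Om t y e) = fun y => ∑ σ : Equiv.Perm (Fin q),
      (Equiv.Perm.sign σ : ℂ) * ∏ i, fderiv ℂ t y (e i) (σ i) := by
    funext y; rw [Om, Matrix.det_apply']; rfl
  rw [this]
  refine Finset.analyticAt_fun_sum _ fun σ _ => analyticAt_const.mul ?_
  refine Finset.analyticAt_fun_prod _ fun i _ => ?_
  have h1 : AnalyticAt ℂ (fun y => fderiv ℂ t y (e i)) x :=
    ((ContinuousLinearMap.apply ℂ (Cm q) (e i)).analyticAt _).comp ht.fderiv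
  exact ((ContinuousLinearMap.proj (σ i) : Cm q →L[ℂ] ℂ).analyticAt _).comp h1

/-- identity theorem: an analytic function on a ball, not zero at one point, is not zero near any
point -/
lemma frequently_ne {g : E → ℂ} {x₀ : E} {r : ℝ} (hg : ∀ x ∈ ball x₀ r, AnalyticAt ℂ g x)
    {x₁ : E} (hx₁ : x₁ ∈ ball x₀ r) (h1 : g x₁ ≠ 0) {x : E} (hx : x ∈ ball x₀ r) :
    ∃ᶠ y in 𝓝 x, g y ≠ 0 := by
  intro hcon
  have h2 : g =ᶠ[𝓝 x] 0 := by
    filter_upwards [hcon] with y hy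
    simpa using hy
  have hgo : AnalyticOnNhd ℂ g (ball x₀ r) := hg
  exact h1 (hgo.eqOn_zero_of_preconnected_of_eventuallyEq_zero
    (convex_ball x₀ r).isPreconnected hx h2 hx₁)

/-- the same along a line -/
lemma frequently_ne_line {g : E → ℂ} {x₀ : E} {r : ℝ} (hg : ∀ x ∈ ball x₀ r, AnalyticAt ℂ g x)
    {z v : E} {t₁ : ℂ} (ht₁ : z + t₁ • v ∈ ball x₀ r) (h1 : g (z + t₁ • v) ≠ 0) {t : ℂ}
    (ht : z + t • v ∈ ball x₀ r) : ∀ᶠ τ in 𝓝[≠] t, g (z + τ • v) ≠ 0 := by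
  set A : Set ℂ := {τ : ℂ | z + τ • v ∈ ball x₀ r} with hA
  have hAc : Convex ℝ A := by
    intro a ha b hb α β hα hβ hαβ
    have h2 := (convex_ball x₀ r) ha hb hα hβ hαβ
    show z + (α • a + β • b) • v ∈ ball x₀ r
    have h3 : z + (α • a + β • b) • v = α • (z + a • v) + β • (z + b • v) := by
      rw [add_smul, smul_add, smul_add, smul_assoc, smul_assoc]
      have : z = α • z + β • z := by rw [← add_smul, hαβ, one_smul]
      nth_rw 1 [this]
      abel
    rw [h3]; exact h2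
  have hgo : AnalyticOnNhd ℂ (fun τ : ℂ => g (z + τ • v)) A := by
    intro τ hτ
    have h4 : AnalyticAt ℂ (fun τ : ℂ => z + τ • v) τ :=
      analyticAt_const.add (analyticAt_id.smul analyticAt_const)
    exact AnalyticAt.comp (g := g) (f := fun τ : ℂ => z + τ • v) (hg _ hτ) h4
  rcases (hgo t ht).eventually_eq_zero_or_eventually_ne_zero with h2 | h2
  · exact absurd (hgo.eqOn_zero_of_preconnected_of_eventuallyEq_zero hAc.isPreconnected ht h2 ht₁)
      h1
  · exact h2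

/-- **(A)** from (G) -/
theorem thmA_of.{v, w, w'} (hG : SliceStmt.{v, w}) : ThmAStmt.{v, w, w'} := by
  intro E _ _ _ _ _ μ _ W _ _ _ q t S U Z _ _ _ h φ x₀ hU ht hS hrel htube hh hφ hx₀ hne hOne hb
  obtain ⟨r, hr, hball⟩ := Metric.isOpen_iff.1 hU x₀ hx₀
  -- a minor which does not vanish identically
  obtain ⟨x₂, hx₂, e, he⟩ : ∃ x₂ ∈ ball x₀ r, ∃ e : Fin q → E, Om t x₂ e ≠ 0 := by
    obtain ⟨x₂, h1, h2⟩ := (hOne.and_eventually (ball_mem_nhds x₀ hr)).exists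
    obtain ⟨e, he⟩ := Function.ne_iff.1 h1
    exact ⟨x₂, h2, e, he⟩
  have hOan : ∀ x ∈ ball x₀ r, AnalyticAt ℂ (fun y => Om t y e) x := fun x hx =>
    analyticAt_Om (ht x (hball hx)) e
  have hOf : ∀ x ∈ ball x₀ r, ∃ᶠ y in 𝓝 x, Om t y e ≠ 0 := fun x hx =>
    frequently_ne hOan hx₂ he hx
  -- a point where `h` and the minor do not vanish
  obtain ⟨x₁, hx₁, hx₁h, hx₁O⟩ : ∃ x₁ ∈ ball x₀ r, h x₁ ≠ 0 ∧ Om t x₁ e ≠ 0 := by
    obtain ⟨x₃, h1, h2⟩ := (hne.and_eventually (ball_mem_nhds x₀ hr)).exists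
    have h3 := (hh x₃ (hball h2)).continuousAt.eventually_ne h1
    obtain ⟨x₁, h4, h5, h6⟩ :=
      ((hOf x₃ h2).and_eventually (h3.and (isOpen_ball.mem_nhds h2))).exists
    exact ⟨x₁, h6, h5, h4⟩
  set v : E := x₁ - x₀ with hv
  set f : E → ℂ := fun x => h x * Om t x e with hf
  have hfan : ∀ x ∈ ball x₀ r, AnalyticAt ℂ f x := fun x hx =>
    (hh x (hball hx)).mul (hOan x hx)
  have hx₀1 : x₀ + (1 : ℂ) • v = x₁ := by rw [one_smul, hv]; abel
  have hx₀0 : x₀ + (0 : ℂ) • v ∈ ball x₀ r := by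
    rw [zero_smul, add_zero]; exact mem_ball_self hr
  have hu : ∀ᶠ τ in 𝓝[≠] (0 : ℂ), f (x₀ + τ • v) ≠ 0 := by
    refine frequently_ne_line hfan (t₁ := 1) ?_ ?_ hx₀0
    · rw [hx₀1]; exact hx₁
    · rw [hx₀1]; exact mul_ne_zero hx₁h hx₁O
  -- almost every line is good
  have hae := hG E μ W q t S U e v hU ht hS hrel htube
  have hDense : Dense {z : E | (∃ s : ℂ, z + s • v ∈ ball x₀ r ∧ f (z + s • v) ≠ 0) →
      ∀ s : ℂ, z + s • v ∈ ball x₀ r → ∃ C : ℝ, ∀ᶠ τ in 𝓝[≠] s,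
        ‖Om t (z + τ • v) e • φ (z + τ • v)‖ ≤ C * ‖f (z + τ • v)‖} := by
    refine Dense.mono ?_ (MeasureTheory.Measure.dense_of_ae hae)
    intro z hz hz1 s hs
    obtain ⟨t₁, ht₁, hft₁⟩ := hz1
    have hO1 : Om t (z + t₁ • v) e ≠ 0 := fun h0 => hft₁ (by simp only [hf, h0, mul_zero])
    have h2 : ∀ᶠ τ in 𝓝[≠] s, Om t (z + τ • v) e ≠ 0 :=
      frequently_ne_line hOan ht₁ hO1 hs
    have h3 : ∃ᶠ τ in 𝓝 (0 : ℂ), Om t (z + s • v + τ • v) e ≠ 0 := by
      have h4 : Tendsto (fun τ : ℂ => τ - s) (𝓝[≠] s) (𝓝 0) := by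
        have : Continuous fun τ : ℂ => τ - s := by fun_prop
        simpa using (this.tendsto s).mono_left nhdsWithin_le_nhds
      refine h4.frequently ?_
      refine h2.frequently.mono fun τ hτ => ?_
      have h5 : z + s • v + (τ - s) • v = z + τ • v := by rw [sub_smul]; abel
      rw [h5]; exact hτ
    obtain ⟨C, hC⟩ := hb _ (hball hs) (hz s (hball hs) h3)
    refine ⟨C, ?_⟩
    have h4 : Tendsto (fun τ : ℂ => z + τ • v) (𝓝[≠] s) (𝓝 (z + s • v)) := by
      have : Continuous fun τ : ℂ => z + τ • v := by fun_prop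
      exact (this.tendsto s).mono_left nhdsWithin_le_nhds
    filter_upwards [h4 hC] with τ hτ
    have hτ' : ‖φ (z + τ • v)‖ ≤ C * ‖h (z + τ • v)‖ := hτ
    rw [norm_smul]
    simp only [hf, norm_mul]
    calc ‖Om t (z + τ • v) e‖ * ‖φ (z + τ • v)‖ ≤
          ‖Om t (z + τ • v) e‖ * (C * ‖h (z + τ • v)‖) := by gcongr
      _ = _ := by ring
  obtain ⟨ρ, hρ, hρr, ψ, hψ, hψ'⟩ := line_extB (ω := f) (Φ := fun x => Om t x e • φ x)
    (x₀ := x₀) hr (u := v)
    (fun x hx => (hfan x hx).differentiableAt.differentiableWithinAt)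
    (fun x hx => ((hOan x hx).differentiableAt.smul
      (hφ x (hball hx)).differentiableAt).differentiableWithinAt) hu hDense
  refine ⟨ψ, Vale.Agent.P268.analyticAt_of_differentiableOn isOpen_ball hψ (mem_ball_self hρ), ?_⟩
  filter_upwards [ball_mem_nhds x₀ hρ] with x hx
  have hxr : x ∈ ball x₀ r := ball_subset_ball hρr hx
  by_contra hcon
  have hc1 : ContinuousAt φ x := (hφ x (hball hxr)).continuousAt
  have hc2 : ContinuousAt (fun y => h y • ψ y) x :=
    (hh x (hball hxr)).continuousAt.smul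
      (hψ.differentiableAt (isOpen_ball.mem_nhds hx)).continuousAt
  have h1 : ∀ᶠ y in 𝓝 x, φ y ≠ h y • ψ y := (hc1.ne_iff_eventually_ne hc2).1 hcon
  obtain ⟨y, h2, h3, h4⟩ := ((hOf x hxr).and_eventually (h1.and (isOpen_ball.mem_nhds hx))).exists
  have h5 := hψ' y h4
  apply h3
  have h6 : Om t y e • (h y • ψ y) = Om t y e • φ y := by
    rw [← h5, smul_smul, mul_comm]
  exact (smul_right_injective _ h2 h6).symm

end Vale.Agent.P284.H500
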