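import Mathlib

/-!
# P284 (helper500), module EXT: the volume of the slab `‖u (x - p)‖ < δ`
-/

open Set Filter Metric Topology MeasureTheory
open scoped NNReal ENNReal

noncomputable section

namespace Vale.Agent.P284.H500

variable {E : Type*} [NormedAddCommGroup E] [NormedSpace ℂ E] [FiniteDimensional ℂ E]
  [MeasurableSpace E] [BorelSpace E] (μ : Measure E) [μ.IsAddHaarMeasure]

theorem vol_slab {u : E →L[ℂ] ℂ} (hu : u ≠ 0) (p : E) {R : ℝ} (hR : 0 < R) :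
    ∃ c C δ₀ : ℝ, 0 < c ∧ 0 < C ∧ 0 < δ₀ ∧
      (∀ δ, 0 < δ → μ (ball p R ∩ {x | ‖u (x - p)‖ < δ}) ≤ ENNReal.ofReal (C * δ ^ 2)) ∧
      (∀ δ, 0 < δ → δ ≤ δ₀ →
        ENNReal.ofReal (c * δ ^ 2) ≤ μ (ball p R ∩ {x | ‖u (x - p)‖ < δ})) := by
  have : ProperSpace E := FiniteDimensional.proper ℂ E
  obtain ⟨v, hv⟩ : ∃ v, u v = 1 := by
    obtain ⟨w, hw⟩ : ∃ w, u w ≠ 0 := by
      by_contra hcon
      push Not at hcon
      exact hu (ContinuousLinearMap.ext hcon)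
    exact ⟨(u w)⁻¹ • w, by rw [map_smul, smul_eq_mul, inv_mul_cancel₀ hw]⟩
  set f₂ : ℂ →L[ℂ] E := (ContinuousLinearMap.id ℂ ℂ).smulRight v with hf₂
  have hr : Function.RightInverse f₂ u := fun z => by simp [hf₂, hv]
  set Ψ : E ≃L[ℂ] ℂ × u.ker := ContinuousLinearEquiv.equivOfRightInverse u f₂ hr with hΨ
  have hΨ1 : ∀ x, (Ψ x).1 = u x := fun x => rfl
  have : ProperSpace u.ker := FiniteDimensional.proper ℂ _
  set ν₂ : Measure u.ker := Measure.addHaar with hν₂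
  set ν : Measure (ℂ × u.ker) := (volume : Measure ℂ).prod ν₂ with hν
  have hmap : (μ.map Ψ).IsAddHaarMeasure := inferInstance
  set κ : ℝ≥0 := Measure.addHaarScalarFactor (μ.map Ψ) ν with hκ
  have hκ1 : μ.map Ψ = κ • ν := Measure.isAddLeftInvariant_eq_smul _ _
  have hκ0 : 0 < κ := Measure.addHaarScalarFactor_pos_of_isAddHaarMeasure _ _
  -- the slab
  have hmeas : ∀ A : Set E, μ A = κ * ν (Ψ '' A) := by
    intro A
    have h1 : (μ.map Ψ) (Ψ '' A) = μ A := by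
      have h2 := Ψ.toHomeomorph.measurableEmbedding.map_apply μ (Ψ '' A)
      have h3 : (Ψ.toHomeomorph : E → ℂ × u.ker) = Ψ := rfl
      rw [h3] at h2
      rw [h2, Ψ.injective.preimage_image A]
    rw [← h1, hκ1]; rfl
  have htr : ∀ δ, μ (ball p R ∩ {x | ‖u (x - p)‖ < δ}) = μ (ball 0 R ∩ {x | ‖u x‖ < δ}) := by
    intro δ
    have h1 : ball p R ∩ {x | ‖u (x - p)‖ < δ} =
        (fun x => x + (-p)) ⁻¹' (ball 0 R ∩ {x | ‖u x‖ < δ}) := by
      ext x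
      simp only [mem_inter_iff, mem_ball, dist_eq_norm, mem_preimage, sub_zero,
        ← sub_eq_add_neg, mem_ofPred_eq]
    rw [h1, measure_preimage_add_right]
  set L : ℝ := ‖(Ψ : E →L[ℂ] ℂ × u.ker)‖ + 1 with hL
  set L' : ℝ := ‖(Ψ.symm : (ℂ × u.ker) →L[ℂ] E)‖ + 1 with hL'
  have hL0 : 0 < L := by positivity
  have hL'0 : 0 < L' := by positivity
  have hb1 : 0 < ν₂ (ball 0 (L * R)) := measure_ball_pos _ _ (by positivity)
  have hb1' : ν₂ (ball 0 (L * R)) < ∞ := measure_ball_lt_top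
  have hb2 : 0 < ν₂ (ball 0 (R / (2 * L'))) := measure_ball_pos _ _ (by positivity)
  have hb2' : ν₂ (ball 0 (R / (2 * L'))) < ∞ := measure_ball_lt_top
  have hπ := Real.pi_pos
  have hcalc : ∀ (b : Set u.ker) (_ : ν₂ b < ∞) (δ : ℝ), 0 < δ →
      κ * ν (ball 0 δ ×ˢ b) = ENNReal.ofReal ((κ * Real.pi * (ν₂ b).toReal) * δ ^ 2) := by
    intro b hb δ hδ
    rw [hν, Measure.prod_prod, Complex.volume_ball]
    have e1 : ENNReal.ofReal ((κ * Real.pi * (ν₂ b).toReal) * δ ^ 2) =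
        ENNReal.ofReal κ * ENNReal.ofReal Real.pi * ENNReal.ofReal (ν₂ b).toReal *
          ENNReal.ofReal δ ^ 2 := by
      rw [ENNReal.ofReal_mul (by positivity), ENNReal.ofReal_mul (by positivity),
        ENNReal.ofReal_mul (by positivity), ENNReal.ofReal_pow hδ.le]
    rw [e1, ENNReal.ofReal_toReal hb.ne]
    have e2 : (κ : ℝ≥0∞) = ENNReal.ofReal κ := by simp
    have e3 : ((NNReal.pi : ℝ≥0) : ℝ≥0∞) = ENNReal.ofReal Real.pi := by
      rw [← NNReal.coe_real_pi, ENNReal.ofReal_coe_nnreal]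
    rw [e2, e3]; ring
  refine ⟨κ * Real.pi * (ν₂ (ball 0 (R / (2 * L')))).toReal,
    κ * Real.pi * (ν₂ (ball 0 (L * R))).toReal, R / (2 * L'), ?_, ?_, by positivity, ?_, ?_⟩
  · have := ENNReal.toReal_pos hb2.ne' hb2'.ne
    positivity
  · have := ENNReal.toReal_pos hb1.ne' hb1'.ne
    positivity
  · intro δ hδ
    rw [htr, hmeas, ← hcalc _ hb1' δ hδ]
    gcongr
    rintro _ ⟨x, ⟨hx1, hx2⟩, rfl⟩
    refine ⟨?_, ?_⟩
    · rw [mem_ball_zero_iff, hΨ1]; exact hx2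
    · rw [mem_ball_zero_iff]
      rw [mem_ball_zero_iff] at hx1
      calc ‖(Ψ x).2‖ ≤ ‖Ψ x‖ := norm_snd_le _
        _ ≤ ‖(Ψ : E →L[ℂ] ℂ × u.ker)‖ * ‖x‖ := (Ψ : E →L[ℂ] ℂ × u.ker).le_opNorm x
        _ ≤ ‖(Ψ : E →L[ℂ] ℂ × u.ker)‖ * R := by gcongr
        _ < L * R := by gcongr; exact lt_add_one _
  · intro δ hδ hδ0
    rw [htr, hmeas, ← hcalc _ hb2' δ hδ]
    gcongr
    rintro ⟨z, h⟩ ⟨hz, hh⟩
    refine ⟨Ψ.symm (z, h), ⟨?_, ?_⟩, Ψ.apply_symm_apply _⟩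
    · rw [mem_ball_zero_iff] at hz hh ⊢
      have h1 : ‖(z, h)‖ ≤ R / (2 * L') := max_le (hz.le.trans hδ0) hh.le
      calc ‖Ψ.symm (z, h)‖ ≤ ‖(Ψ.symm : (ℂ × u.ker) →L[ℂ] E)‖ * ‖(z, h)‖ :=
            (Ψ.symm : (ℂ × u.ker) →L[ℂ] E).le_opNorm _
        _ ≤ L' * (R / (2 * L')) := by gcongr; exact (lt_add_one _).le
        _ = R / 2 := by field_simp
        _ < R := by linarith
    · show ‖u (Ψ.symm (z, h))‖ < δ
      rw [← hΨ1, Ψ.apply_symm_apply]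
      simpa using hz

end Vale.Agent.P284.H500
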