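import Vale.Agent.P284.H500.Vol

/-!
# P284 (helper500), module EXT: the volume of the curved slab `‖g x‖ < δ`
-/

open Set Filter Metric Topology MeasureTheory
open scoped NNReal ENNReal

noncomputable section

namespace Vale.Agent.P284.H500

variable {E : Type*} [NormedAddCommGroup E] [NormedSpace ℂ E] [FiniteDimensional ℂ E]
  [MeasurableSpace E] [BorelSpace E] (μ : Measure E) [μ.IsAddHaarMeasure]

theorem vol_slabC {g : E → ℂ} {p : E} (hg : AnalyticAt ℂ g p) (hgp : g p = 0)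
    (hg' : fderiv ℂ g p ≠ 0) : ∃ R₀ > 0, ∀ R, 0 < R → R ≤ R₀ →
    ∃ c C δ₀ : ℝ, 0 < c ∧ 0 < C ∧ 0 < δ₀ ∧
      (∀ δ, 0 < δ → μ (ball p R ∩ {x | ‖g x‖ < δ}) ≤ ENNReal.ofReal (C * δ ^ 2)) ∧
      (∀ δ, 0 < δ → δ ≤ δ₀ →
        ENNReal.ofReal (c * δ ^ 2) ≤ μ (ball p R ∩ {x | ‖g x‖ < δ})) := by
  set u : E →L[ℂ] ℂ := fderiv ℂ g p with hu
  obtain ⟨v, hv⟩ : ∃ v, u v = 1 := by
    obtain ⟨w, hw⟩ : ∃ w, u w ≠ 0 := by
      by_contra hcon
      push Not at hcon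
      exact hg' (ContinuousLinearMap.ext hcon)
    exact ⟨(u w)⁻¹ • w, by rw [map_smul, smul_eq_mul, inv_mul_cancel₀ hw]⟩
  set Ψ : E → E := fun x => x + (g x - u (x - p)) • v with hΨ
  have hΨp : Ψ p = p := by simp [hΨ, hgp]
  have huΨ : ∀ x, u (Ψ x - p) = g x := by
    intro x
    simp only [hΨ, map_sub, map_add, map_smul, hv, smul_eq_mul, mul_one]
    ring
  have h1 : HasStrictFDerivAt Ψ (ContinuousLinearMap.id ℂ E) p := by
    have h2 : HasStrictFDerivAt g u p := hg.hasStrictFDerivAt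
    have h3 : HasStrictFDerivAt (fun x => u (x - p)) u p := by
      have := u.hasStrictFDerivAt.comp p ((hasStrictFDerivAt_id p).sub_const p)
      rwa [ContinuousLinearMap.comp_id] at this
    have h4 := (hasStrictFDerivAt_id p).add ((h2.sub h3).smul_const v)
    simp only [sub_self] at h4
    have h5 : ContinuousLinearMap.id ℂ E + (0 : E →L[ℂ] ℂ).smulRight v =
        ContinuousLinearMap.id ℂ E := by
      ext x; simp
    rw [h5] at h4
    exact h4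
  have h2 : HasStrictFDerivAt Ψ (ContinuousLinearMap.id ℝ E) p := h1.restrictScalars ℝ
  have h3 : (ContinuousLinearMap.id ℝ E).det = 1 := by
    simp [ContinuousLinearMap.det]
  have e1 := addHaar_image_le_mul_of_det_lt μ (ContinuousLinearMap.id ℝ E) (m := 2)
    (by rw [h3]; norm_num)
  have e2 := mul_le_addHaar_image_of_lt_det μ (ContinuousLinearMap.id ℝ E) (m := 2⁻¹)
    (by rw [h3, abs_one, ENNReal.ofReal_one]; norm_cast
        rw [← NNReal.coe_lt_coe]; push_cast; norm_num)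
  obtain ⟨δ₁, ⟨e3, e4⟩, e5⟩ := ((e1.and e2).and self_mem_nhdsWithin).exists
  have e5' : 0 < δ₁ := e5
  obtain ⟨s, hs, hA⟩ := h2.approximates_deriv_on_nhds (c := δ₁) (Or.inr e5')
  obtain ⟨R₁, hR₁, hsub⟩ := Metric.mem_nhds_iff.1 hs
  have hcont : ContinuousAt Ψ p := h1.continuousAt
  obtain ⟨R₂, hR₂, hsub2⟩ := Metric.eventually_nhds_iff_ball.1
    (hcont.eventually (ball_mem_nhds (Ψ p) one_pos))
  refine ⟨min R₁ R₂, lt_min hR₁ hR₂, fun R hR hRle => ?_⟩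
  have hmap : Ψ '' ball p R ∈ 𝓝 p := by
    have h4 : HasStrictFDerivAt Ψ ((ContinuousLinearEquiv.refl ℂ E : E ≃L[ℂ] E) : E →L[ℂ] E) p := h1
    have h5 := h4.map_nhds_eq_of_equiv
    rw [hΨp] at h5
    rw [← h5]
    exact image_mem_map (ball_mem_nhds p hR)
  obtain ⟨ρ, hρ, hρs⟩ := Metric.mem_nhds_iff.1 hmap
  obtain ⟨c, C, δ₀, hc, hC, hδ₀, -, hlow⟩ := vol_slab μ hg' p hρ
  obtain ⟨c', C', δ₀', hc', hC', hδ₀', hup, -⟩ := vol_slab μ hg' p one_pos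
  have hSR : ∀ δ, ball p R ∩ {x | ‖g x‖ < δ} ⊆ s := fun δ =>
    inter_subset_left.trans ((ball_subset_ball (hRle.trans (min_le_left _ _))).trans hsub)
  refine ⟨c / 2, 2 * C', δ₀, by positivity, by positivity, hδ₀, ?_, ?_⟩
  · intro δ hδ
    have h4 := e4 (ball p R ∩ {x | ‖g x‖ < δ}) Ψ (hA.mono_set (hSR δ))
    have h5 : Ψ '' (ball p R ∩ {x | ‖g x‖ < δ}) ⊆ ball p 1 ∩ {x | ‖u (x - p)‖ < δ} := by
      rintro _ ⟨x, ⟨hx1, hx2⟩, rfl⟩
      refine ⟨?_, ?_⟩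
      · have := hsub2 x (ball_subset_ball (hRle.trans (min_le_right _ _)) hx1)
        rwa [hΨp] at this
      · show ‖u (Ψ x - p)‖ < δ
        rw [huΨ]; exact hx2
    have h6 := (h4.trans (measure_mono h5)).trans (hup δ hδ)
    have h7 : μ (ball p R ∩ {x | ‖g x‖ < δ}) =
        2 * (((2⁻¹ : ℝ≥0) : ℝ≥0∞) * μ (ball p R ∩ {x | ‖g x‖ < δ})) := by
      rw [← mul_assoc, ENNReal.coe_inv two_ne_zero, ENNReal.coe_ofNat,
        ENNReal.mul_inv_cancel two_ne_zero ENNReal.ofNat_ne_top, one_mul]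
    rw [h7]
    calc _ ≤ 2 * ENNReal.ofReal (C' * δ ^ 2) := by gcongr
      _ = _ := by
        rw [mul_assoc, ENNReal.ofReal_mul (p := 2) (by norm_num)]; norm_num
  · intro δ hδ hδ0
    have h4 := e3 (ball p R ∩ {x | ‖g x‖ < δ}) Ψ (hA.mono_set (hSR δ))
    have h5 : ball p ρ ∩ {x | ‖u (x - p)‖ < δ} ⊆ Ψ '' (ball p R ∩ {x | ‖g x‖ < δ}) := by
      rintro y ⟨hy1, hy2⟩
      obtain ⟨x, hx, rfl⟩ := hρs hy1
      refine ⟨x, ⟨hx, ?_⟩, rfl⟩
      have : ‖u (Ψ x - p)‖ < δ := hy2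
      rwa [huΨ] at this
    have h6 := ((hlow δ hδ hδ0).trans (measure_mono h5)).trans h4
    have h7 : ENNReal.ofReal (c / 2 * δ ^ 2) * 2 = ENNReal.ofReal (c * δ ^ 2) := by
      rw [show c * δ ^ 2 = c / 2 * δ ^ 2 * 2 by ring, ENNReal.ofReal_mul (p := c / 2 * δ ^ 2)
        (by positivity)]
      norm_num
    rw [← h7, mul_comm] at h6
    exact (ENNReal.mul_le_mul_iff_right two_ne_zero ENNReal.ofNat_ne_top).1 h6

end Vale.Agent.P284.H500
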